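import Vale.Agent.P200.Deg.Index.Blocks

/-!
The numerator of the Hilbert series is divisible by the product of the factors of the blocks.
-/

noncomputable section

namespace Vale.Agent.P200.Deg.Index

open MvPolynomial Module Filter

set_option linter.unusedSectionVars false

variable {J : Type*} [DecidableEq J] [Fintype J] {K D W : Type*} [Field K] [DivisionRing D]
  [Algebra K D] [AddCommGroup W] [Module K W] [Module D W] [SMulCommClass D K W]
  [IsScalarTower K D W] [FiniteDimensional K D] {m a : ℕ}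
  {φ : MvPolynomial (Var m J) K →ₐ[K] Module.End D W} {Y X X' : PDg J → Submodule D W}
  {c : J → Fin m → Fin (a + 1) → K}

/-- Combinations of translates of the product of the block factors. -/
def U₁ (J : Type*) [DecidableEq J] [Fintype J] (a : ℕ) : Submodule ℤ (Fn J) :=
  (U₀ J).map (act (∏ r : J, (1 - T ((a : ℤ), Pi.single r (a : ℤ))))) ⊔ Ev J

lemma act_mem_U₁ (p : AddMonoidAlgebra ℤ (Dg J)) {f : Fn J} (hf : f ∈ U₁ J a) :
    act p f ∈ U₁ J a := by
  obtain ⟨_, ⟨y, hy, rfl⟩, z, hz, rfl⟩ := Submodule.mem_sup.1 hf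
  rw [map_add, ← act_mul, mul_comm, act_mul]
  exact Submodule.add_mem_sup ⟨_, act_mem_U₀ p hy, rfl⟩ (act_mem_Ev p hz)

lemma kos_mono (h : X' ≤ X) : kos (wk (J := J) a m) X' ≤ kos (wk a m) X :=
  fun g f hf => mem_kos.2 fun S => h _ (mem_kos.1 hf S)

lemma sub_kos (hX : Sub φ a Y X) :
    Sub (liftOp φ (m + 1)) a (kos (wk a m) Y) (kos (wk a m) X) :=
  ⟨stable_kos hX.1, kos_mono hX.2⟩

lemma kos_maps {p : MvPolynomial (Var m J) K} {d : PDg J} (h : Maps (φ p) d X X') :
    Maps (liftOp φ (m + 1) p) d (kos (wk a m) X) (kos (wk a m) X') := fun g f hf =>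
  mem_kos.2 fun S => by
    rw [liftOp_apply, add_sub_right_comm]
    exact h _ _ (mem_kos.1 hf S)

lemma maps_contr_zv (hX : Stable φ (wt a m) X) :
    Maps (contr φ zv) (0, 1) (kos (wk a m) X) (kos (wk a m) X) := fun g f hf =>
  contr_mem hX (c := zv) (d := fun i => wt a m (.inl i))
    (fun i => isWeightedHomogeneous_X K _ _)
    (fun i => .inr (Prod.ext (by simp [wk]) (show (0 : ZMod 2) = 1 + 1 by decide))) hf

/-- Cycles for the Koszul differential. -/
abbrev Zc (φ : MvPolynomial (Var m J) K →ₐ[K] Module.End D W) (a : ℕ)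
    (X X' : PDg J → Submodule D W) : PDg J → Submodule D (Finset (Fin (m + 1)) → W) :=
  pre (contr φ zv) (0, 1) (kos (wk a m) X) (kos (wk a m) X')

/-- Boundaries for the Koszul differential. -/
abbrev Bc (φ : MvPolynomial (Var m J) K →ₐ[K] Module.End D W) (a : ℕ)
    (X X' : PDg J → Submodule D W) : PDg J → Submodule D (Finset (Fin (m + 1)) → W) :=
  img (contr φ zv) (0, 1) (kos (wk a m) X) (kos (wk a m) X')

lemma koszul_basic (ha : 0 < a) (hY : Gen φ (wt a m) Y) (hX : Sub φ a Y X) (hX' : Sub φ a Y X')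
    (hle : X' ≤ X) :
    Sub (liftOp φ (m + 1)) a (kos (wk a m) Y) (Zc φ a X X') ∧
      Sub (liftOp φ (m + 1)) a (kos (wk a m) Y) (Bc φ a X X') ∧
      Bc φ a X X' ≤ Zc φ a X X' ∧
      (∀ i, Maps (liftOp φ (m + 1) (MvPolynomial.X (.inl i))) (wt a m (.inl i))
        (Zc φ a X X') (Bc φ a X X')) ∧
      chi (Zc φ a X X') - chi (Bc φ a X X') =
        act (∏ i : Fin (m + 1), (1 - T (dg a m (.inl i : Var m J)))) (chi X - chi X') := by
  have := hX.fin ha hY
  have := hX'.fin ha hY
  have := (sub_kos hX).fin ha (gen_kos hY)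
  have := (sub_kos hX').fin ha (gen_kos hY)
  have hc := fun v => commute_contr (φ := φ) (MvPolynomial.X v) (zv (K := K) (J := J) (m := m))
  refine ⟨sub_pre (sub_kos hX) (sub_kos hX') hc, sub_img (sub_kos hX) (sub_kos hX') hc
    (fun g f hf => kos_mono hX.2 _ (maps_contr_zv hX.1 g f hf)), fun g => ?_, fun i g f hf => ?_, ?_⟩
  · refine sup_le ?_ (le_pre (kos_mono hle) (maps_contr_zv hX'.1) g)
    rintro _ ⟨y, hy, rfl⟩
    refine ⟨by simpa using maps_contr_zv hX.1 _ y hy, ?_⟩
    rw [Submodule.comap_coe, Set.mem_preimage, SetLike.mem_coe, ← Module.End.mul_apply, contr_sq,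
      LinearMap.zero_apply]
    exact zero_mem _
  · have he := contr_wedge (φ := φ) (zv (K := K) (J := J) (m := m)) (Pi.single i 1)
    rw [Finset.sum_eq_single i (fun j _ h => by simp [Pi.single_eq_of_ne h]) (by simp),
      Pi.single_eq_same, mul_one] at he
    have hone : ∀ j, IsWeightedHomogeneous (wt a m)
        ((Pi.single i 1 : Fin (m + 1) → MvPolynomial (Var m J) K) j) 0 := fun j => by
      rcases eq_or_ne j i with rfl | h
      · rw [Pi.single_eq_same]; exact isWeightedHomogeneous_one _ _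
      · rw [Pi.single_eq_of_ne h]; exact isWeightedHomogeneous_zero _ _ _
    have hdeg : ∀ j, (Pi.single i 1 : Fin (m + 1) → MvPolynomial (Var m J) K) j = 0 ∨
        (0 : PDg J) + wk a m j = wk a m i := fun j => by
      rcases eq_or_ne j i with rfl | h
      · exact .inr (zero_add _)
      · exact .inl (Pi.single_eq_of_ne h _)
    have h1 := wedge_mem (w := wk a m) hX.1 hone hdeg hf.1
    have h2 := wedge_mem (w := wk a m) hX'.1 hone hdeg hf.2
    change liftOp φ (m + 1) (zv i) f ∈ _
    rw [← he, LinearMap.add_apply, Module.End.mul_apply, Module.End.mul_apply]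
    have e : g + (0, 1) + wk a m i = g + wt a m (.inl i : Var m J) := by
      rw [add_assoc]
      congr 1
      exact Prod.ext (zero_add _) (show (1 : ZMod 2) + 1 = 0 by decide)
    refine Submodule.add_mem_sup ⟨_, ?_, rfl⟩ (e ▸ h2)
    rw [← e, add_right_comm, add_sub_cancel_right]
    exact h1
  · have h := chi_step (contr φ zv) (0 : Dg J) 1 (kos (wk a m) X) (kos (wk a m) X')
    rw [if_neg (by decide)] at h
    rw [map_sub (act _), ← chi_kos, ← chi_kos]
    funext e
    have h' := congrFun h e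
    rw [act_single, sub_zero] at h'
    simp only [Pi.sub_apply] at h' ⊢
    linarith

theorem koszul_mem (ha : 0 < a) (hY : Gen φ (wt a m) Y)
    (hl : ∀ r, φ (MvPolynomial.X (.inr (.inr r)) ^ a) = φ (lin c r))
    (hind : ∀ x : J → Fin 2 → AlgebraicClosure K, (∀ r, x r ≠ 0) →
      LinearIndependent (AlgebraicClosure K) fun r l =>
        ∑ p : Fin (a + 1), algebraMap K (AlgebraicClosure K) (c r l p) *
          x r 0 ^ (p : ℕ) * x r 1 ^ (a - (p : ℕ)))
    (hX : Sub φ a Y X) (hX' : Sub φ a Y X') (hle : X' ≤ X)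
    (hk : ∀ r, Maps (φ (MvPolynomial.X (.inr (.inr r)))) (wt a m (.inr (.inr r))) X X') :
    act (∏ i : Fin (m + 1), (1 - T (dg a m (.inl i : Var m J)))) (chi X - chi X') ∈ U₁ J a := by
  classical
  obtain ⟨hZ0, hB0, hBZ, hz, hchi⟩ := koszul_basic ha hY hX hX' hle
  rw [← hchi]
  have hYk : Gen (liftOp φ (m + 1)) (wt a m) (kos (wk a m) Y) := gen_kos hY
  have hwk : ∀ r, Maps (liftOp φ (m + 1) (MvPolynomial.X (.inr (.inr r))))
      (wt a m (.inr (.inr r))) (Zc φ a X X') (Bc φ a X X') := fun r g f hf =>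
    (le_sup_right : _ ≤ Bc φ a X X' _) (kos_maps (hk r) g f hf.1)
  -- `lin r` maps the pair into itself
  have hlin : ∀ r, Maps (φ (lin c r)) (a • wt a m (.inr (.inr r) : Var m J)) X X' := by
    intro r g x hx
    obtain ⟨a', rfl⟩ : ∃ a', a = a' + 1 := ⟨a - 1, by omega⟩
    rw [← hl, pow_succ', map_mul, Module.End.mul_apply, succ_nsmul, ← add_assoc]
    exact hk r _ _ (hX.1.homog ((isWeightedHomogeneous_X K _ _).pow a') hx)
  have hdeg : ∀ r : J, ((0, 1) : PDg J) + qE a r = a • wt a m (.inr (.inr r) : Var m J) := fun r => by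
    refine Prod.ext (Prod.ext ?_ ?_) ?_
    · simp [qE, dg]
    · funext j
      rcases eq_or_ne j r with rfl | hj
      · simp [qE, dg]
      · simp [qE, dg, hj]
    · simp [qE]
      decide
  -- the wedge and contraction operators on cycles and boundaries
  have hE : ∀ r, ∀ V, Sub φ a Y V →
      Maps (wedge φ (fv c r)) (qE a r) (kos (wk a m) V) (kos (wk a m) V) :=
    fun r V hV g f hf => wedge_mem hV.1 (fv_homog c r) (fv_deg c r) hf
  have hI : ∀ e s, ∀ V, Sub φ a Y V →
      Maps (contr φ (cof c e s)) (qI a s) (kos (wk a m) V) (kos (wk a m) V) :=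
    fun e s V hV g f hf => contr_mem hV.1 (cof_homog c e s) (cof_deg c e s) hf
  have hEZ : ∀ r, Maps (wedge φ (fv c r)) (qE a r) (Zc φ a X X') (Zc φ a X X') := fun r g f hf => by
    refine ⟨hE r X hX g f hf.1, ?_⟩
    rw [Submodule.comap_coe, Set.mem_preimage, SetLike.mem_coe, ← Module.End.mul_apply,
      eq_sub_of_add_eq (contr_wedge (φ := φ) zv (fv c r)), LinearMap.sub_apply,
      Module.End.mul_apply, add_assoc, add_comm (qE a r) ((0, 1) : PDg J)]
    refine sub_mem ?_ (by rw [← add_assoc]; exact hE r X' hX' _ _ hf.2)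
    rw [hdeg]
    exact kos_maps (hlin r) g f hf.1
  have hEB : ∀ r, Maps (wedge φ (fv c r)) (qE a r) (Bc φ a X X') (Bc φ a X X') := fun r g f hf => by
    obtain ⟨_, ⟨y, hy, rfl⟩, z, hz', rfl⟩ := Submodule.mem_sup.1 hf
    rw [map_add, ← Module.End.mul_apply, eq_sub_of_add_eq' (contr_wedge (φ := φ) zv (fv c r)),
      LinearMap.sub_apply, Module.End.mul_apply]
    refine add_mem (sub_mem ?_ ?_) ((le_sup_right : _ ≤ Bc φ a X X' _) (hE r X' hX' g z hz'))
    · refine (le_sup_right : _ ≤ Bc φ a X X' _) ?_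
      have := kos_maps (hlin r) (g - (0, 1)) y hy
      rwa [← hdeg, ← add_assoc, sub_add_cancel] at this
    · refine (le_sup_left : _ ≤ Bc φ a X X' _) ⟨_, ?_, rfl⟩
      rw [add_sub_right_comm]
      exact hE r X hX _ y hy
  have hIZ : ∀ e s, Maps (contr φ (cof c e s)) (qI a s) (Zc φ a X X') (Zc φ a X X') :=
    fun e s g f hf => by
      refine ⟨hI e s X hX g f hf.1, ?_⟩
      rw [Submodule.comap_coe, Set.mem_preimage, SetLike.mem_coe, ← Module.End.mul_apply,
        eq_neg_of_add_eq_zero_left (contr_anti (φ := φ) zv (cof c e s)), LinearMap.neg_apply,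
        Module.End.mul_apply, add_right_comm]
      exact neg_mem (hI e s X' hX' _ _ hf.2)
  have hIB : ∀ e s, Maps (contr φ (cof c e s)) (qI a s) (Bc φ a X X') (Bc φ a X X') :=
    fun e s g f hf => by
      obtain ⟨_, ⟨y, hy, rfl⟩, z, hz', rfl⟩ := Submodule.mem_sup.1 hf
      rw [map_add, ← Module.End.mul_apply,
        eq_neg_of_add_eq_zero_left (contr_anti (φ := φ) (cof c e s) zv), LinearMap.neg_apply,
        Module.End.mul_apply]
      refine add_mem (neg_mem ?_) ((le_sup_right : _ ≤ Bc φ a X X' _) (hI e s X' hX' g z hz'))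
      refine (le_sup_left : _ ≤ Bc φ a X X' _) ⟨_, ?_, rfl⟩
      rw [add_sub_right_comm]
      exact hI e s X hX _ y hy
  -- killing powers of the irrelevant monomials
  obtain ⟨N, hN⟩ := irrelevant_le_minors c hind
  suffices key : ∀ S : Finset J, ∃ V p, Sub (liftOp φ (m + 1)) a (kos (wk a m) Y) V ∧
      Bc φ a X X' ≤ V ∧ V ≤ Zc φ a X X' ∧
      (∀ r ∉ S, Maps (wedge φ (fv c r)) (qE a r) V V) ∧
      (∀ e, ∀ r ∉ S, Maps (contr φ (cof c e r)) (qI a r) V V) ∧
      chi (Zc φ a X X') - chi (Bc φ a X X') -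
        act ((∏ r ∈ S, (1 - T ((a : ℤ), Pi.single r (a : ℤ)))) * p)
          (chi V - chi (Bc φ a X X')) ∈ Ev J by
    obtain ⟨V, p, hV, hBV, hVZ, -, -, hmem⟩ := key Finset.univ
    rw [act_mul] at hmem
    rw [show chi (Zc φ a X X') - chi (Bc φ a X X') =
      act (∏ r : J, (1 - T ((a : ℤ), Pi.single r (a : ℤ)))) (act p (chi V - chi (Bc φ a X X'))) +
      (chi (Zc φ a X X') - chi (Bc φ a X X') - act (∏ r : J, (1 - T ((a : ℤ), Pi.single r (a : ℤ))))
        (act p (chi V - chi (Bc φ a X X')))) by abel]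
    exact Submodule.add_mem_sup ⟨_, act_mem_U₀ p (chi_mem_U₀ ha hYk hV hB0 hBV
      ⟨fun i g f hf => hz i g f (hVZ g hf), fun r g f hf => hwk r g f (hVZ g hf)⟩), rfl⟩ hmem
  intro S
  induction S using Finset.induction_on with
  | empty =>
    exact ⟨Zc φ a X X', 1, hZ0, hBZ, le_rfl, fun r _ => hEZ r, fun e r _ => hIZ e r, by simp⟩
  | insert j S hj ih =>
    obtain ⟨V, p, hV, hBV, hVZ, hVE, hVI, hmem⟩ := ih
    set f := wedge φ (fv c j) with hf
    set B := Bc φ a X X'
    set I := img f (qE a j) V B with hIdef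
    set Z := pre f (qE a j) V B with hZdef
    have := hV.fin ha hYk
    have := hB0.fin ha hYk
    have hcf := fun v => commute_wedge (φ := φ) (MvPolynomial.X v) (fv c j)
    have hfV : Maps f (qE a j) V V := hVE j hj
    have hIs : Sub (liftOp φ (m + 1)) a (kos (wk a m) Y) I :=
      sub_img hV hB0 hcf fun g x hx => hV.2 _ (hfV g x hx)
    have hZs : Sub (liftOp φ (m + 1)) a (kos (wk a m) Y) Z := sub_pre hV hB0 hcf
    have hIV : I ≤ V := img_le hBV hfV
    have hIZ' : I ≤ Z := fun g => sup_le (by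
      rintro _ ⟨y, hy, rfl⟩
      refine ⟨by simpa using hfV _ y hy, ?_⟩
      rw [Submodule.comap_coe, Set.mem_preimage, SetLike.mem_coe, ← Module.End.mul_apply, hf,
        wedge_sq, LinearMap.zero_apply]
      exact zero_mem _) (le_pre hBV (hEB j) g)
    have hkill : Killed (liftOp φ (m + 1)) a Z I :=
      ⟨fun i g x hx => (le_sup_right : _ ≤ I _) (hz i g x (hVZ g hx.1)),
        fun r g x hx => (le_sup_right : _ ≤ I _) (hwk r g x (hVZ g hx.1))⟩
    have hEv : chi Z - chi I ∈ Ev J := by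
      refine chi_mem_Ev hYk hZs hIs hIZ' hkill N fun ch => ?_
      rw [irrelevant_eq]
      refine (Ideal.span_le (I := (killIdeal (liftOp φ (m + 1)) (wt a m) Z hIs.1).comap
        (rename emb))).2 ?_ (hN ch)
      rintro _ ⟨e, rfl⟩
      simp only [SetLike.mem_coe, Ideal.mem_comap, ← minor_eq]
      refine mem_killIdeal hIs.1 (minor_homog c e) fun g x hx => ?_
      have hs := contr_wedge (φ := φ) (cof c e j) (fv c j)
      rw [sum_cof_fv, if_pos rfl] at hs
      rw [← hs, LinearMap.add_apply, Module.End.mul_apply, Module.End.mul_apply, ← qE_add_qI j]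
      refine add_mem ((le_sup_right : _ ≤ I _) ?_) ((le_sup_left : _ ≤ I _) ⟨_, ?_, rfl⟩)
      · rw [← add_assoc]
        exact hIB e j _ _ hx.2
      · rw [add_comm (qE a j), ← add_assoc, add_sub_cancel_right]
        exact hVI e j hj g x hx.1
    refine ⟨I, p * AddMonoidAlgebra.single (-((a : ℤ), Pi.single j (a : ℤ))) (-1),
      hIs, fun g => le_sup_right, hIV.trans hVZ, fun r hr g x hx => ?_, fun e r hr g x hx => ?_, ?_⟩
    · obtain ⟨hrj, hrS⟩ : r ≠ j ∧ r ∉ S := by simpa using hr
      obtain ⟨_, ⟨y, hy, rfl⟩, z, hz', rfl⟩ := Submodule.mem_sup.1 hx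
      rw [map_add, ← Module.End.mul_apply, hf,
        eq_neg_of_add_eq_zero_left (wedge_anti (φ := φ) (fv c r) (fv c j)), LinearMap.neg_apply,
        Module.End.mul_apply, ← map_neg]
      refine Submodule.add_mem_sup ⟨_, ?_, rfl⟩ (hEB r g z hz')
      rw [add_sub_right_comm]
      exact neg_mem (hVE r hrS _ y hy)
    · obtain ⟨hrj, hrS⟩ : r ≠ j ∧ r ∉ S := by simpa using hr
      obtain ⟨_, ⟨y, hy, rfl⟩, z, hz', rfl⟩ := Submodule.mem_sup.1 hx
      have hs := contr_wedge (φ := φ) (cof c e r) (fv c j)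
      rw [sum_cof_fv, if_neg (Ne.symm hrj), map_zero] at hs
      rw [map_add, ← Module.End.mul_apply, hf, eq_neg_of_add_eq_zero_left hs, LinearMap.neg_apply,
        Module.End.mul_apply, ← map_neg]
      refine Submodule.add_mem_sup ⟨_, ?_, rfl⟩ (hIB e r g z hz')
      rw [add_sub_right_comm]
      exact neg_mem (hVI e r hrS _ y hy)
    · have hstep : act (AddMonoidAlgebra.single ((a : ℤ), Pi.single j (a : ℤ)) (-1))
          (chi Z - chi V) = chi B - chi I := by
        have h := chi_step f ((a : ℤ), Pi.single j (a : ℤ)) 1 V B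
        rwa [if_neg (by decide)] at h
      set d : Dg J := ((a : ℤ), Pi.single j (a : ℤ))
      have hkey : chi V - chi B - act ((1 - T d) * AddMonoidAlgebra.single (-d) (-1))
          (chi I - chi B) = chi Z - chi I := by
        have e1 : (1 - T d) * AddMonoidAlgebra.single (-d) (-1) =
            AddMonoidAlgebra.single (-d) (-1 : ℤ) + 1 := by
          rw [sub_mul, one_mul, AddMonoidAlgebra.single_mul_single, add_neg_cancel, one_mul,
            sub_eq_add_neg, ← AddMonoidAlgebra.single_neg, neg_neg]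
          rfl
        rw [e1, map_add, map_one, LinearMap.add_apply, Module.End.one_apply]
        have h2 := congrArg (act (AddMonoidAlgebra.single (-d) (1 : ℤ))) hstep
        rw [← act_mul, AddMonoidAlgebra.single_mul_single, neg_add_cancel, one_mul] at h2
        funext x
        have h3 := congrFun h2 x
        simp only [Pi.sub_apply, Pi.add_apply, act_single, sub_zero] at h3 ⊢
        linarith
      rw [Finset.prod_insert hj]
      rw [show (1 - T d) * (∏ r ∈ S, (1 - T ((a : ℤ), Pi.single r (a : ℤ)))) *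
          (p * AddMonoidAlgebra.single (-d) (-1)) =
          ((∏ r ∈ S, (1 - T ((a : ℤ), Pi.single r (a : ℤ)))) * p) *
          ((1 - T d) * AddMonoidAlgebra.single (-d) (-1)) by ring, act_mul,
        show act ((1 - T d) * AddMonoidAlgebra.single (-d) (-1)) (chi I - chi B) =
          (chi V - chi B) - (chi Z - chi I) by rw [← hkey]; abel,
        map_sub, ← sub_add]
      exact add_mem hmem (act_mem_Ev _ hEv)

/-- The numerator theorem. -/
theorem numerator (ha : 0 < a) (hY : Gen φ (wt a m) Y) (hYs : Stable φ (wt a m) Y)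
    (hl : ∀ r, φ (MvPolynomial.X (.inr (.inr r)) ^ a) = φ (lin c r))
    (hind : ∀ x : J → Fin 2 → AlgebraicClosure K, (∀ r, x r ≠ 0) →
      LinearIndependent (AlgebraicClosure K) fun r l =>
        ∑ p : Fin (a + 1), algebraMap K (AlgebraicClosure K) (c r l p) *
          x r 0 ^ (p : ℕ) * x r 1 ^ (a - (p : ℕ))) :
    act (∏ i : Fin (m + 1), (1 - T (dg a m (.inl i : Var m J)))) (chi Y) ∈ Bdd J ∧
    ∃ F ∈ U₀ J, act (∏ i : Fin (m + 1), (1 - T (dg a m (.inl i : Var m J)))) (chi Y) -
      act (∏ r : J, ∑ j : Fin a, T ((j : ℕ) • ((1 : ℤ), Pi.single r (1 : ℤ)))) F ∈ Ev J := by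
  classical
  set q : AddMonoidAlgebra ℤ (Dg J) := ∏ i : Fin (m + 1), (1 - T (dg a m (.inl i : Var m J)))
  have hYY : Sub φ a Y Y := ⟨hYs, le_rfl⟩
  have hbot : Sub φ a Y (fun _ => ⊥) :=
    ⟨fun v g x hx => by simp [(Submodule.mem_bot D).1 hx], fun g => bot_le⟩
  have hchi0 : chi (J := J) (fun _ : PDg J => (⊥ : Submodule D W)) = 0 := funext fun e => by
    simp [chi]
  have hbd : act q (chi Y) ∈ Bdd J := by
    obtain ⟨hZ0, hB0, hBZ, hz, hchi⟩ := koszul_basic ha hY hYY hbot fun g => bot_le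
    rw [hchi0, sub_zero] at hchi
    rw [← hchi]
    refine chi_mem_Bdd (gen_kos hY) hZ0 hB0 hBZ hz fun r => ?_
    rw [← X_pow_eq_monomial]
    refine mem_killIdeal hB0.1 ((isWeightedHomogeneous_X K _ _).pow a) fun g f hf => ?_
    have h1 : liftOp φ (m + 1) (MvPolynomial.X (Sum.inr (Sum.inr r)) ^ a) f =
        liftOp φ (m + 1) (lin c r) f := funext fun S => by
      rw [liftOp_apply, liftOp_apply, hl]
    rw [h1, lin, map_sum, LinearMap.sum_apply]
    refine sum_mem fun i _ => ?_
    rcases fv_deg c r i with h0 | hd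
    · simp [h0]
    rw [mul_comm, map_mul, Module.End.mul_apply]
    have h2 := hB0.1.homog (fv_homog c r i) (hz i g f hf)
    have e : g + wt a m (Sum.inl i : Var m J) + degF a r =
        g + a • wt a m (Sum.inr (Sum.inr r) : Var m J) := by
      rw [add_assoc]
      congr 1
      have := congrArg (fun x : PDg J => x + (0, 1)) hd
      try simp only at this
      rw [show wt a m (Sum.inl i : Var m J) + degF a r = degF a r + wk a m i + (0, 1) from
        Prod.ext (by simp [wk, degF, add_comm]) (show (0 : ZMod 2) + 0 = 0 + 1 + 1 by decide),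
        this]
      refine Prod.ext (Prod.ext ?_ ?_) ?_
      · simp [qE, dg]
      · funext j
        rcases eq_or_ne j r with rfl | hj
        · simp [qE, dg]
        · simp [qE, dg, hj]
      · simp [qE]
        decide
    rw [← e]
    exact h2
  refine ⟨hbd, ?_⟩
  let ws : List (Var m J) := (Finset.univ : Finset J).toList.map fun r => .inr (.inr r)
  have h := sweep ha hY ((U₁ J a).comap (act q))
    (fun p f hf => by
      rw [Submodule.mem_comap, ← act_mul, mul_comm, act_mul]
      exact act_mem_U₁ p hf) ws (fun _ => False)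
    (fun X X' hX hX' hle hk => koszul_mem ha hY hl hind hX hX' hle fun r =>
      hk _ (.inr (List.mem_map.2 ⟨r, Finset.mem_toList.2 (Finset.mem_univ r), rfl⟩)))
    Y (fun _ => ⊥) hYY hbot (fun g => bot_le) fun v hv => hv.elim
  rw [hchi0, sub_zero, Submodule.mem_comap, List.map_map,
    Finset.prod_map_toList] at h
  obtain ⟨_, ⟨F, hF, rfl⟩, z, hzE, hsum⟩ := Submodule.mem_sup.1 h
  refine ⟨F, hF, ?_⟩
  have hgeom : ∏ r : J, (1 - T ((a : ℤ), Pi.single r (a : ℤ))) =
      (∏ r : J, (1 - T (dg a m (.inr (.inr r) : Var m J)))) *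
        ∏ r : J, ∑ j : Fin a, T ((j : ℕ) • ((1 : ℤ), Pi.single r (1 : ℤ))) := by
    rw [← Finset.prod_mul_distrib]
    refine Finset.prod_congr rfl fun r _ => ?_
    rw [dg, one_sub_mul_geom]
    congr 2
    refine Prod.ext (by simp) (funext fun j => ?_)
    rcases eq_or_ne j r with rfl | hj
    · simp
    · simp [hj]
  have hFb : F ∈ Bdd J := hF.1
  refine mem_Ev_of_prod Finset.univ (fun r => dg a m (.inr (.inr r) : Var m J))
    (fun r => by simp [dg]) (sub_mem hbd (act_mem_Bdd _ hFb)) ?_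
  rw [map_sub (act _), ← act_mul, ← act_mul, ← hgeom, mul_comm, act_mul]
  simp only [Function.comp_apply] at hsum
  rw [← hsum, add_sub_cancel_left]
  exact hzE

end Vale.Agent.P200.Deg.Index
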