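import Vale.Agent.P200.Deg.Index.Growth

/-!
A finite-dimensional division algebra stays free under `z`: the monomials are independent over it.
-/

noncomputable section

namespace Vale.Agent.P200.Deg.Index

open Filter Module

variable {K : Type*} [Field K] {m : ℕ} {E : Type*} [DivisionRing E]
  [Algebra (FractionRing (MvPolynomial (Fin m) K)) E]

/-- A monomial in the `z_l` as an element of `E`. -/
def zmon (α : Fin m →₀ ℕ) : E :=
  algebraMap (FractionRing (MvPolynomial (Fin m) K)) E
    (algebraMap _ (FractionRing (MvPolynomial (Fin m) K)) (MvPolynomial.monomial α (1 : K)))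

lemma zmon_add (α β : Fin m →₀ ℕ) :
    (zmon (K := K) (α + β) : E) = zmon (K := K) α * zmon (K := K) β := by
  simp only [zmon, ← map_mul, MvPolynomial.monomial_mul, one_mul]

lemma zmon_zero : (zmon (K := K) (0 : Fin m →₀ ℕ) : E) = 1 := by
  simp [zmon, ← MvPolynomial.C_apply]

lemma zmon_comm (α : Fin m →₀ ℕ) (e : E) :
    Commute e (zmon (K := K) α) :=
  (Algebra.commutes _ e).symm

/-- The monomials as a homomorphism. -/
def zhom : Multiplicative (Fin m →₀ ℕ) →* E where
  toFun α := zmon (K := K) α.toAdd
  map_one' := zmon_zero
  map_mul' α β := zmon_add α.toAdd β.toAdd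

variable [Algebra K E] [IsScalarTower K (FractionRing (MvPolynomial (Fin m) K)) E]
  {D : Type*} [DivisionRing D] [Algebra K D] [FiniteDimensional K D]

/-- The monomials are independent over `D`. -/
theorem zmon_indep (φ : D →ₐ[K] E) (t : Finset (Fin m →₀ ℕ)) (d : (Fin m →₀ ℕ) → D)
    (h : ∑ α ∈ t, φ (d α) * zmon (K := K) α = 0) : ∀ α ∈ t, d α = 0 := by
  classical
  let θ : AddMonoidAlgebra D (Fin m →₀ ℕ) →+* E :=
    AddMonoidAlgebra.liftNCRingHom φ.toRingHom (zhom (K := K)) fun x y => zmon_comm _ _
  have hθ : ∀ α x, θ (AddMonoidAlgebra.single α x) = φ x * zmon (K := K) α := fun α x => by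
    simp [θ, zhom]
  by_contra hne
  push Not at hne
  obtain ⟨α₀, hα₀, hd⟩ := hne
  set P : AddMonoidAlgebra D (Fin m →₀ ℕ) := ∑ α ∈ t, AddMonoidAlgebra.single α (d α) with hP
  have hP0 : P ≠ 0 := fun h0 => hd (by
    have := congrArg (fun Q : AddMonoidAlgebra D (Fin m →₀ ℕ) => Q.coeff α₀) h0
    simpa [hP, AddMonoidAlgebra.coeff_sum, Finsupp.finsetSum_apply, Finsupp.single_apply, hα₀]
      using this)
  have hθP : θ P = 0 := by simp [hP, hθ, h]
  let p : ℕ := P.coeff.support.sup fun α => ∑ i, α i
  -- polynomials of bounded degree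
  let ι : ∀ N, (mons m N → D) →ₗ[K] AddMonoidAlgebra D (Fin m →₀ ℕ) := fun N =>
    { toFun := fun f => ∑ β : mons m N, AddMonoidAlgebra.single β.1 (f β)
      map_add' := fun f g => by
        rw [← Finset.sum_add_distrib]
        exact Finset.sum_congr rfl fun β _ => AddMonoidAlgebra.single_add _ _ _
      map_smul' := fun c f => by
        rw [RingHom.id_apply, Finset.smul_sum]
        exact Finset.sum_congr rfl fun β _ => by rw [Pi.smul_apply, AddMonoidAlgebra.smul_single] }
  have hι : ∀ N f (β : mons m N), (ι N f).coeff β.1 = f β := fun N f β => by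
    simp only [ι, LinearMap.coe_mk, AddHom.coe_mk, AddMonoidAlgebra.coeff_sum,
      Finsupp.finsetSum_apply, AddMonoidAlgebra.coeff_single, Finsupp.single_apply]
    rw [Finset.sum_eq_single β (fun b _ hb => if_neg fun e => hb (Subtype.ext e)) (by simp),
      if_pos rfl]
  have hιs : ∀ N f, ∀ β ∈ (ι N f).coeff.support, β ∈ mons m N := fun N f β hβ => by
    by_contra hno
    refine Finsupp.mem_support_iff.1 hβ ?_
    simp only [ι, LinearMap.coe_mk, AddHom.coe_mk, AddMonoidAlgebra.coeff_sum,
      Finsupp.finsetSum_apply, AddMonoidAlgebra.coeff_single, Finsupp.single_apply]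
    exact Finset.sum_eq_zero fun b _ => if_neg fun (e : b.1 = β) => hno (e ▸ b.2)
  have hθK : ∀ (c : K) (x : AddMonoidAlgebra D (Fin m →₀ ℕ)), θ (c • x) = c • θ x := fun c x => by
    induction x using AddMonoidAlgebra.induction_linear with
    | zero => simp
    | add x y hx hy => rw [smul_add, map_add, map_add, smul_add, hx, hy]
    | single α x => rw [AddMonoidAlgebra.smul_single, hθ, hθ, map_smul, smul_mul_assoc]
  let θN : ∀ N, (mons m N → D) →ₗ[K] E := fun N =>
    { toFun := fun f => θ (ι N f)
      map_add' := fun f g => by simp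
      map_smul' := fun c f => by simp [hθK] }
  have key : ∀ N, p ≤ N → (finrank K D : ℤ) * count m (N - p : ℕ) + count m N ≤
      (finrank K D : ℤ) * count m N := by
    intro N hN
    have hdim : ∀ M, (finrank K (mons m M → D) : ℤ) = (finrank K D : ℤ) * count m M := fun M => by
      rw [Module.finrank_pi_fintype, Finset.sum_const, Finset.card_univ, Fintype.card_coe,
        smul_eq_mul, ← card_mons]
      push_cast
      ring
    have himage : (mons m N).card ≤ finrank K (LinearMap.range (θN N)) := by
      have hmem : ∀ β : mons m N, zmon (K := K) β.1 ∈ LinearMap.range (θN N) := fun β => by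
        refine ⟨Pi.single β 1, ?_⟩
        simp only [θN, ι, LinearMap.coe_mk, AddHom.coe_mk, map_sum, hθ]
        rw [Finset.sum_eq_single β (fun b _ hb => by simp [Pi.single_eq_of_ne hb]) (by simp)]
        simp
      have hind : LinearIndependent K fun β : mons m N =>
          (⟨_, hmem β⟩ : LinearMap.range (θN N)) := by
        refine LinearIndependent.of_comp (LinearMap.range (θN N)).subtype ?_
        let f : MvPolynomial (Fin m) K →ₗ[K] E :=
          ((IsScalarTower.toAlgHom K (FractionRing (MvPolynomial (Fin m) K)) E).comp
            (IsScalarTower.toAlgHom K (MvPolynomial (Fin m) K)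
              (FractionRing (MvPolynomial (Fin m) K)))).toLinearMap
        have hf : Function.Injective f :=
          (algebraMap (FractionRing (MvPolynomial (Fin m) K)) E).injective.comp
            (IsFractionRing.injective (MvPolynomial (Fin m) K) _)
        exact (((MvPolynomial.basisMonomials (Fin m) K).linearIndependent.comp
          (Subtype.val : mons m N → _) Subtype.val_injective).map' f (LinearMap.ker_eq_bot.2 hf))
      simpa using hind.fintype_card_le_finrank
    let μ : (mons m (N - p) → D) →ₗ[K] LinearMap.ker (θN N) :=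
      { toFun := fun f => ⟨fun β => (P * ι (N - p) f).coeff β.1, by
          have e : ι N (fun β => (P * ι (N - p) f).coeff β.1) = P * ι (N - p) f := by
            ext β
            by_cases hβ : β ∈ mons m N
            · exact hι N _ ⟨β, hβ⟩
            · rw [Finsupp.notMem_support_iff.1 fun h' => hβ (hιs N _ β h'), eq_comm,
                ← Finsupp.notMem_support_iff]
              intro h'
              obtain ⟨x, hx, y, hy, rfl⟩ :=
                Finset.mem_add.1 (AddMonoidAlgebra.support_coeff_mul_subset _ _ h')
              refine hβ (mem_mons.2 ?_)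
              have h1 : ∑ i, x i ≤ p := Finset.le_sup (f := fun α => ∑ i, α i) hx
              have h2 := mem_mons.1 (hιs _ f y hy)
              simp only [Finsupp.coe_add, Pi.add_apply, Finset.sum_add_distrib]
              omega
          simp [θN, e, hθP]⟩
        map_add' := fun f g => by ext β; simp [mul_add]
        map_smul' := fun c f => by ext β; simp }
    have hμ : Function.Injective μ := by
      refine (injective_iff_map_eq_zero μ).2 fun f hf => ?_
      have h0 : P * ι (N - p) f = 0 := by
        ext β
        by_cases hβ : β ∈ mons m N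
        · simpa [μ] using congrFun (congrArg Subtype.val hf) ⟨β, hβ⟩
        · rw [AddMonoidAlgebra.coeff_zero, Finsupp.zero_apply]
          by_contra hne
          obtain ⟨x, hx, y, hy, rfl⟩ := Finset.mem_add.1
            (AddMonoidAlgebra.support_coeff_mul_subset _ _ (Finsupp.mem_support_iff.2 hne))
          refine hβ (mem_mons.2 ?_)
          have h1 : ∑ i, x i ≤ p := Finset.le_sup (f := fun α => ∑ i, α i) hx
          have h2 := mem_mons.1 (hιs _ f y hy)
          simp only [Finsupp.coe_add, Pi.add_apply, Finset.sum_add_distrib]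
          omega
      rcases mul_eq_zero.1 h0 with h1 | h1
      · exact absurd h1 hP0
      · funext β
        rw [← hι (N - p) f β, h1]
        rfl
    have h1 := LinearMap.finrank_le_finrank_of_injective hμ
    have h2 := LinearMap.finrank_range_add_finrank_ker (θN N)
    rw [← hdim, ← hdim, ← card_mons]
    omega
  -- the growth contradicts this
  have hδ := finrank_pos (R := K) (M := D)
  have hd1 := nonneg_of_bdiff (m := m)
    (f := fun s => ((finrank K D : ℤ) - 1) * count m (s + 0) +
      -(finrank K D : ℤ) * count m (s + -(p : ℤ))) (c := -1)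
    (eventually_atTop.2 ⟨p, fun s hs => by
      obtain ⟨N, rfl⟩ : ∃ N : ℕ, s = N := ⟨s.toNat, by omega⟩
      have := key N (by omega)
      rw [Nat.cast_sub (by omega), sub_eq_add_neg] at this
      rw [add_zero]
      linarith⟩)
    (((bdiff_iter_count m 0).and (bdiff_iter_count m (-(p : ℤ)))).mono fun s hs => by
      rw [bdiff_iter_lin (fun t => count m (t + 0)) (fun t => count m (t + -(p : ℤ))), hs.1, hs.2]
      ring)
  omega

end Vale.Agent.P200.Deg.Index
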