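import Vale.Agent.P200.Deg.Index.Vanish
import Vale.Agent.P200.Deg.Index.Generic

/-!
The Rees filtration inside a piece: its total numerator is the dimension of the piece over `E`.
-/

noncomputable section

namespace Vale.Agent.P200.Deg.Index

open Filter Module MvPolynomial

set_option linter.unusedSectionVars false

variable {J : Type*} [DecidableEq J] [Fintype J] {m a : ℕ}

/-- The total of the numerator is the top difference along multiples of `a`. -/
lemma tot_numerator (ha : 0 < a) {h : Fn J} (hneg : ∀ s n, s < 0 → h (s, n) = 0)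
    (hbd : act (∏ i : Fin (m + 1), (1 - T (dg a m (.inl i : Var m J)))) h ∈ Bdd J) :
    ∀ᶠ n in atTop, ∀ᶠ t in atTop,
      bdiff^[m] (fun t => h ((a : ℤ) * t, n)) t =
        tot (act (∏ i : Fin (m + 1), (1 - T (dg a m (.inl i : Var m J)))) h) n := by
  set g := act (∏ i : Fin (m + 1), (1 - T (dg a m (.inl i : Var m J)))) h with hg
  set u : Dg J := ((a : ℤ), 0)
  set f := act ((1 - T u) ^ m) h with hf
  have hgf : ∀ s n, g (s, n) = f (s, n) - f (s - 1, n) := fun s n => by
    rw [hg, Fin.prod_univ_succ]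
    simp only [dg, if_pos, Fin.succ_ne_zero, if_false, Finset.prod_const, Finset.card_univ,
      Fintype.card_fin]
    rw [act_mul, act_one_sub, show ((s, n) : Dg J) - ((1 : ℤ), 0) = (s - 1, n) from
      Prod.ext rfl (sub_zero n)]
  have hit : ∀ i : ℕ, ∀ t n, act ((1 - T u) ^ i) h ((a : ℤ) * t, n) =
      bdiff^[i] (fun t => h ((a : ℤ) * t, n)) t := fun i => by
    induction i with
    | zero => intro t n; simp
    | succ i ih =>
      intro t n
      rw [pow_succ', act_mul, act_one_sub, bdiff_iter_succ, ← ih, ← ih,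
        show (((a : ℤ) * t, n) : Dg J) - u = ((a : ℤ) * (t - 1), n) from
          Prod.ext (by simp [u]; ring) (sub_zero n)]
  have hfneg : ∀ i : ℕ, ∀ s n, s < 0 → act ((1 - T u) ^ i) h (s, n) = 0 := fun i => by
    induction i with
    | zero => intro s n hs; simpa using hneg s n hs
    | succ i ih =>
      intro s n hs
      rw [pow_succ', act_mul, act_one_sub, ih s n hs,
        show ((s, n) : Dg J) - u = (s - a, n) from Prod.ext rfl (sub_zero n),
        ih (s - a) n (by omega), sub_zero]
  obtain ⟨s₀, s₁, hs⟩ := hbd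
  refine hs.mono fun n hn => eventually_atTop.2 ⟨max 0 s₁, fun t ht => ?_⟩
  rw [← hit m t n, ← hf]
  have hsum : ∀ S : ℕ, ∑ i ∈ Finset.range S, g ((a : ℤ) * t - i, n) =
      f ((a : ℤ) * t, n) - f ((a : ℤ) * t - S, n) := fun S => by
    induction S with
    | zero => simp
    | succ S ih =>
      rw [Finset.sum_range_succ, ih, hgf]
      push_cast
      rw [sub_sub ((a : ℤ) * t) (S : ℤ) 1]
      ring
  set S : ℕ := ((a : ℤ) * t - min 0 s₀ + 1).toNat with hS
  have hat : t ≤ (a : ℤ) * t :=
    le_mul_of_one_le_left (le_of_max_le_left ht) (by omega)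
  have ht1 := le_of_max_le_right ht
  rw [tot_eq (F := (Finset.range S).image fun i : ℕ => (a : ℤ) * t - i), Finset.sum_image, hsum,
    hf, hfneg m _ n (show (a : ℤ) * t - S < 0 by omega), sub_zero]
  · intro i _ j _ hij
    simpa using hij
  · intro s hs'
    refine hn s ?_
    by_contra hout
    refine hs' (Finset.mem_image.2 ⟨((a : ℤ) * t - s).toNat, Finset.mem_range.2 ?_, ?_⟩) <;> omega

variable {K : Type*} [Field K] {E : Type*} [DivisionRing E]
  [Algebra (FractionRing (MvPolynomial (Fin m) K)) E] [Algebra K E]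
  [IsScalarTower K (FractionRing (MvPolynomial (Fin m) K)) E]
  {D : Type*} [DivisionRing D] [Algebra K D] [FiniteDimensional K D]
  {M : Type*} [AddCommGroup M] [Module E M] [Module K M] [IsScalarTower K E M]
  [Module D M] [SMulCommClass D K M] [IsScalarTower K D M]

/-- A polynomial in the `z_l` as an element of `E`. -/
def zev (q : MvPolynomial (Fin m) K) : E :=
  algebraMap (FractionRing (MvPolynomial (Fin m) K)) E
    (algebraMap _ (FractionRing (MvPolynomial (Fin m) K)) q)

lemma zev_comm (q : MvPolynomial (Fin m) K) (e : E) : zev q * e = e * zev q :=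
  Algebra.commutes _ e

variable (φd : D →ₐ[K] E) (hD : ∀ (d : D) (x : M), d • x = φd d • x)

include hD in
lemma zev_smul_comm (q : MvPolynomial (Fin m) K) (d : D) (x : M) :
    zev (E := E) q • d • x = d • zev (E := E) q • x := by
  rw [hD, hD, smul_smul, smul_smul, zev_comm]

/-- The rank theorem: the numerator of the Rees filtration totals to the dimension over `E`. -/
theorem tot_eq_finrank (ha : 0 < a) (φ : MvPolynomial (Var m J) K →ₐ[K] Module.End D M)
    (hE : ∀ y : E, ∃ (t : Finset (Fin m →₀ ℕ)) (d : (Fin m →₀ ℕ) → D)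
      (q : MvPolynomial (Fin m) K), q ≠ 0 ∧
        zev q * y = ∑ α ∈ t, zmon (K := K) α * φd (d α))
    (hlam : ∀ x, φ (X (.inl 0)) x = x)
    (hz : ∀ l x, φ (X (.inl (Fin.succ l))) x = zev (E := E) (MvPolynomial.X l : MvPolynomial (Fin m) K) • x)
    (hlin : ∀ v (e : E) x, φ (X (.inr v)) (e • x) = e • φ (X (.inr v)) x)
    (hD : ∀ (d : D) (x : M), d • x = φd d • x)
    (T : Finset (PDg J × M)) (hT : ∀ t ∈ T, t.1.1.1 = 0)
    (piece : (J → ℤ) → Submodule E M)
    (hYp : ∀ s n q, ∀ x ∈ genSpan φ (wt a m) T ((s, n), q), x ∈ piece n)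
    (hpY : ∀ n, piece n ≤ Submodule.span E (⋃ s, (genSpan φ (wt a m) T ((s, n), 0) : Set M)))
    (hpar : ∀ t ∈ T, t.1.2 = 0)
    (hbd : act (∏ i : Fin (m + 1), (1 - Index.T (dg a m (.inl i : Var m J))))
      (chi (genSpan φ (wt a m) T)) ∈ Bdd J) :
    ∀ᶠ n in atTop, tot (act (∏ i : Fin (m + 1), (1 - Index.T (dg a m (.inl i : Var m J))))
      (chi (genSpan φ (wt a m) T))) n = finrank E (piece n) := by
  classical
  set Y := genSpan φ (wt a m) T
  -- the action of the polynomials in `λ, z`
  let ev : MvPolynomial (Fin (m + 1)) K →ₐ[K] MvPolynomial (Fin m) K := aeval (Fin.cons 1 X)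
  have hrl : ∀ (p : MvPolynomial (Fin (m + 1)) K) x,
      φ (rename Sum.inl p) x = zev (E := E) (ev p) • x := by
    intro p
    induction p using MvPolynomial.induction_on with
    | C c =>
      intro x
      simp only [ev, zev, ← MvPolynomial.algebraMap_eq, AlgHom.commutes,
        Module.algebraMap_end_apply, ← IsScalarTower.algebraMap_apply, algebraMap_smul]
    | add p q hp hq => intro x; simp [map_add, hp, hq, zev, add_smul]
    | mul_X p i hp =>
      intro x
      have hi : φ (X (Sum.inl i : Var m J)) x = zev (E := E) (ev (X i)) • x := by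
        cases i using Fin.cases with
        | zero => simp [ev, hlam, zev]
        | succ l => simp [ev, hz]
      rw [map_mul, rename_X, map_mul, Module.End.mul_apply, hi, hp, smul_smul]
      simp [zev, map_mul]
  have hrr : ∀ (p : MvPolynomial ((J × Fin 2) ⊕ J) K) (e : E) x,
      φ (rename Sum.inr p) (e • x) = e • φ (rename Sum.inr p) x := by
    intro p
    induction p using MvPolynomial.induction_on with
    | C c =>
      intro e x
      simp only [← MvPolynomial.algebraMap_eq, AlgHom.commutes, Module.algebraMap_end_apply,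
        ← algebraMap_smul E c, smul_smul, Algebra.commutes]
    | add p q hp hq => intro e x; simp [map_add, hp, hq, smul_add]
    | mul_X p i hp =>
      intro e x
      rw [map_mul, rename_X, map_mul, Module.End.mul_apply, Module.End.mul_apply, hlin, hp]
  have hsplit : ∀ b : Var m J →₀ ℕ, ∃ (j : Fin (m + 1) →₀ ℕ) (b' : ((J × Fin 2) ⊕ J) →₀ ℕ),
      (∀ i, b (.inl i) = j i) ∧ (∀ v, b (.inr v) = b' v) ∧
      ∀ x, φ (monomial b 1) x =
        zev (E := E) (ev (monomial j 1)) • φ (rename Sum.inr (monomial b' (1 : K))) x := by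
    intro b
    refine ⟨b.comapDomain Sum.inl Sum.inl_injective.injOn,
      b.comapDomain Sum.inr Sum.inr_injective.injOn, fun i => rfl, fun v => rfl, fun x => ?_⟩
    rw [← hrl, ← Module.End.mul_apply, ← map_mul, rename_monomial, rename_monomial, monomial_mul,
      one_mul]
    congr
    ext (i | v) <;> simp [Finsupp.mapDomain_apply Sum.inl_injective,
      Finsupp.mapDomain_apply Sum.inr_injective, Finsupp.mapDomain_of_notMem_range]
  have hev : ∀ j : Fin (m + 1) →₀ ℕ, ev (monomial j (1 : K)) =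
      monomial (Finsupp.equivFunOnFinite.symm fun l => j l.succ) 1 := by
    intro j
    rw [aeval_monomial, map_one, one_mul, Finsupp.prod_fintype _ _ fun i => pow_zero _,
      Fin.prod_univ_succ, monomial_eq, map_one, one_mul,
      Finsupp.prod_fintype _ _ fun i => pow_zero _]
    simp
  have hzmon : ∀ β : Fin m →₀ ℕ, zev (E := E) (monomial β (1 : K)) = zmon (K := K) β := fun β => rfl
  have hw : ∀ (b : Var m J →₀ ℕ), ((Finsupp.weight (wt a m) b).1.1 : ℤ) =
      b (.inl 0) + a * (∑ l : Fin m, b (.inl l.succ)) + ∑ r : J, (b (.inr (.inr r)) : ℤ) := by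
    intro b
    rw [weight_wt, Prod.fst_sum, Prod.fst_sum, Fintype.sum_sum_type, Fintype.sum_sum_type,
      Fin.sum_univ_succ]
    simp [dg, Finset.mul_sum, mul_comm, add_assoc]
  have hwn : ∀ (b : Var m J →₀ ℕ) r, (Finsupp.weight (wt a m) b).1.2 r =
      b (.inr (.inl (r, 0))) + b (.inr (.inl (r, 1))) + (b (.inr (.inr r)) : ℤ) := by
    intro b r
    rw [weight_wt, Prod.fst_sum, Prod.snd_sum, Finset.sum_apply, Fintype.sum_sum_type,
      Fintype.sum_sum_type, Fintype.sum_prod_type]
    simp [dg, Pi.single_apply, Fin.sum_univ_two]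
  have hneg : ∀ s n, s < 0 → ∀ q, Y ((s, n), q) = ⊥ := by
    intro s n hs q
    rw [eq_bot_iff]
    refine Submodule.span_le.2 ?_
    rintro _ ⟨t, ht, b, hb, rfl⟩
    have := congrArg (fun g : PDg J => g.1.1) hb
    simp only [Prod.fst_add, hw b, hT t ht] at this
    have h1 : (0 : ℤ) ≤ ∑ r : J, (b (.inr (.inr r)) : ℤ) := Finset.sum_nonneg fun r _ => by positivity
    have h2 : (0 : ℤ) ≤ (a : ℤ) * ((∑ l : Fin m, b (.inl l.succ) : ℕ) : ℤ) := by positivity
    push_cast at h2 this
    omega
  have hodd : ∀ e : Dg J, Y (e, 1) = ⊥ := by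
    intro e
    rw [eq_bot_iff]
    refine Submodule.span_le.2 ?_
    rintro _ ⟨t, ht, b, hb, rfl⟩
    have := congrArg (fun g : PDg J => g.2) hb
    simp only [Prod.snd_add, weight_wt, Prod.snd_sum, Prod.smul_snd, smul_zero,
      Finset.sum_const_zero, add_zero, hpar t ht] at this
    exact absurd this (by decide)
  have hchi : ∀ e, chi Y e = finrank D (Y (e, 0)) := fun e => by
    rw [chi, hodd e, finrank_bot, Nat.cast_zero, sub_zero]
  refine (tot_numerator ha (fun s n hs => by
    rw [hchi, hneg s n hs 0, finrank_bot, Nat.cast_zero]) hbd).mono fun n hn => ?_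
  -- a finite spanning set of the piece
  let Bn : PDg J × M → Set (((J × Fin 2) ⊕ J) →₀ ℕ) := fun t =>
    {b' | ∀ r, (b' (.inl (r, 0)) : ℤ) + b' (.inl (r, 1)) + b' (.inr r) = n r - t.1.1.2 r}
  have hBfin : ∀ t, (Bn t).Finite := fun t => by
    refine (Finsupp.finite_of_degree_le (∑ r, |n r - t.1.1.2 r|).toNat).subset fun b' hb' => ?_
    rw [Set.mem_ofPred_eq, Finsupp.degree_eq_sum, Fintype.sum_sum_type, Fintype.sum_prod_type,
      ← Finset.sum_add_distrib, Int.le_toNat (Finset.sum_nonneg fun r _ => abs_nonneg _)]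
    push_cast
    refine Finset.sum_le_sum fun r _ => ?_
    rw [Fin.sum_univ_two, hb' r]
    exact le_abs_self _
  let S : Finset M := T.biUnion fun t =>
    (hBfin t).toFinset.image fun b' => φ (rename Sum.inr (monomial b' (1 : K))) t.2
  have hYS : ∀ s, ∀ x ∈ Y ((s, n), 0), x ∈ Submodule.span D
      {z : M | ∃ β : Fin m →₀ ℕ, (a : ℤ) * ((∑ l, β l : ℕ) : ℤ) ≤ s ∧ ∃ y ∈ S,
        z = zmon (E := E) (K := K) β • y} := by
    intro s
    refine Submodule.span_le.2 ?_
    rintro _ ⟨t, ht, b, hb, rfl⟩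
    obtain ⟨j, b', hj, hb', hφ⟩ := hsplit b
    refine Submodule.subset_span ⟨Finsupp.equivFunOnFinite.symm fun l => j l.succ, ?_,
      φ (rename Sum.inr (monomial b' 1)) t.2, ?_, by rw [hφ, hev, hzmon]⟩
    · have := congrArg (fun g : PDg J => g.1.1) hb
      simp only [Prod.fst_add, hw b, hT t ht, zero_add] at this
      have h1 : (0 : ℤ) ≤ ∑ r : J, (b (.inr (.inr r)) : ℤ) :=
        Finset.sum_nonneg fun r _ => by positivity
      simp only [Finsupp.coe_equivFunOnFinite_symm, ← hj]
      push_cast at this ⊢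
      omega
    · refine Finset.mem_biUnion.2 ⟨t, ht, Finset.mem_image.2 ⟨b', (hBfin t).mem_toFinset.2 ?_, rfl⟩⟩
      intro r
      have := congrArg (fun g : PDg J => g.1.2 r) hb
      simp only [Prod.fst_add, Prod.snd_add, Pi.add_apply, hwn b r] at this
      simp only [← hb']
      omega
  have hSY : ∀ y ∈ S, ∃ s : ℤ, ∀ (β : Fin m →₀ ℕ) (s' : ℤ),
      (a : ℤ) * ((∑ l, β l : ℕ) : ℤ) + s ≤ s' → zmon (E := E) (K := K) β • y ∈ Y ((s', n), 0) := by
    intro y hy
    obtain ⟨t, ht, hy⟩ := Finset.mem_biUnion.1 hy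
    obtain ⟨b', hb', rfl⟩ := Finset.mem_image.1 hy
    refine ⟨∑ r : J, (b' (.inr r) : ℤ), fun β s' hs' => ?_⟩
    let j : Fin (m + 1) →₀ ℕ := Finsupp.equivFunOnFinite.symm (Fin.cons
      (s' - (a : ℤ) * ((∑ l, β l : ℕ) : ℤ) - ∑ r : J, (b' (.inr r) : ℤ)).toNat β)
    let b : Var m J →₀ ℕ := Finsupp.sumElim j b'
    obtain ⟨j₁, b₁, hj₁, hb₁, hφ⟩ := hsplit b
    have ej : (Finsupp.equivFunOnFinite.symm fun l => j₁ l.succ : Fin m →₀ ℕ) = β := by
      ext l
      simp [← hj₁, b, j]
    have eb : b₁ = b' := by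
      ext v
      simp [← hb₁, b]
    refine Submodule.subset_span ⟨t, ht, b, ?_, by rw [hφ, hev, hzmon, ej, eb]⟩
    refine Prod.ext (Prod.ext ?_ (funext fun r => ?_)) ?_
    · simp only [Prod.fst_add, hw b, hT t ht, b, Finsupp.sumElim_inl, Finsupp.sumElim_inr, j,
        Finsupp.coe_equivFunOnFinite_symm, Fin.cons_zero, Fin.cons_succ]
      push_cast at hs' ⊢
      omega
    · simp only [Prod.fst_add, Prod.snd_add, Pi.add_apply, hwn b r, b, Finsupp.sumElim_inr]
      have := ((hBfin t).mem_toFinset.1 hb') r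
      omega
    · simp [weight_wt, Prod.snd_sum, hpar t ht]
  have hpiece : piece n = Submodule.span E (S : Set M) := by
    refine le_antisymm ((hpY n).trans (Submodule.span_le.2 ?_)) (Submodule.span_le.2 fun y hy => ?_)
    · rw [Set.iUnion_subset_iff]
      intro s x hx
      have h0 := hYS s x hx
      clear hx
      induction h0 using Submodule.span_induction with
      | mem x hx =>
        obtain ⟨β, -, y, hy, rfl⟩ := hx
        exact Submodule.smul_mem _ _ (Submodule.subset_span hy)
      | zero => exact zero_mem _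
      | add x x' _ _ h h' => exact add_mem h h'
      | smul c x _ h => rw [hD]; exact Submodule.smul_mem _ _ h
    · obtain ⟨s, hs⟩ := hSY y hy
      exact hYp s n 0 y (by simpa [zmon_zero] using hs 0 s (by simp))
  obtain ⟨b, hbS, hbspan, hbind⟩ := exists_linearIndependent E (S : Set M)
  have hbfin : b.Finite := S.finite_toSet.subset hbS
  have := hbfin.fintype
  have hr : finrank E (piece n) = Fintype.card b := by
    rw [hpiece, ← hbspan, finrank_span_set_eq_card hbind, Set.toFinset_card]
  let Lat : ℕ → Submodule D M := fun N => Submodule.span D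
    (Set.range fun p : mons m N × b => zmon (E := E) (K := K) p.1.1 • (p.2 : M))
  have hLat : ∀ N, finrank D (Lat N) = (mons m N).card * Fintype.card b := by
    intro N
    rw [finrank_span_eq_card, Fintype.card_prod, Fintype.card_coe]
    refine Fintype.linearIndependent_iff.2 fun g hg p => ?_
    have h1 : ∑ v : b, (∑ β : mons m N, φd (g (β, v)) * zmon (K := K) β.1) • (v : M) = 0 := by
      rw [← hg, Fintype.sum_prod_type, Finset.sum_comm]
      exact Finset.sum_congr rfl fun v _ => by simp [Finset.sum_smul, hD, smul_smul]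
    have h2 := Fintype.linearIndependent_iff.1 hbind _ h1 p.2
    have h3 := zmon_indep φd (mons m N)
      (fun β => if h : β ∈ mons m N then g (⟨β, h⟩, p.2) else 0) (by
        rw [← Finset.sum_coe_sort]
        simpa using h2) p.1.1 p.1.2
    simpa using h3
  have hLmono : ∀ N N', N ≤ N' → Lat N ≤ Lat N' := fun N N' hNN => Submodule.span_le.2 (by
    rintro _ ⟨⟨β, v⟩, rfl⟩
    exact Submodule.subset_span ⟨(⟨β.1, mem_mons.2 ((mem_mons.1 β.2).trans hNN)⟩, v), rfl⟩)
  have hLz : ∀ (β : Fin m →₀ ℕ) N, ∀ x ∈ Lat N,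
      zmon (E := E) (K := K) β • x ∈ Lat (∑ l, β l + N) := by
    intro β N x hx
    induction hx using Submodule.span_induction with
    | mem x hx =>
      obtain ⟨⟨α, v⟩, rfl⟩ := hx
      rw [smul_smul, ← zmon_add]
      refine Submodule.subset_span ⟨(⟨β + α.1, mem_mons.2 ?_⟩, v), rfl⟩
      have := mem_mons.1 α.2
      simp only [Finsupp.coe_add, Pi.add_apply, Finset.sum_add_distrib]
      omega
    | zero => simp
    | add x y _ _ h h' => rw [smul_add]; exact add_mem h h'
    | smul c x _ h => rw [← hzmon, zev_smul_comm φd hD]; exact Submodule.smul_mem _ _ h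
  have hLq : ∀ (q : MvPolynomial (Fin m) K) N, ∀ x ∈ Lat N,
      zev (E := E) q • x ∈ Lat (q.totalDegree + N) := by
    intro q N x hx
    rw [q.as_sum, zev, map_sum, map_sum, Finset.sum_smul, ← q.as_sum]
    refine sum_mem fun β hβ => ?_
    rw [show monomial β (coeff β q) = coeff β q • monomial β (1 : K) by
      rw [smul_monomial, smul_eq_mul, mul_one]]
    change zev (E := E) (coeff β q • monomial β 1) • x ∈ _
    rw [show zev (E := E) (coeff β q • monomial β (1 : K)) = coeff β q • zmon (K := K) β by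
      rw [zev, Algebra.smul_def, map_mul, map_mul,
        ← IsScalarTower.algebraMap_apply K (MvPolynomial (Fin m) K)
          (FractionRing (MvPolynomial (Fin m) K)),
        ← IsScalarTower.algebraMap_apply K (FractionRing (MvPolynomial (Fin m) K)) E,
        ← Algebra.smul_def]
      rfl, smul_assoc]
    refine Submodule.smul_of_tower_mem _ _ (hLmono _ _ ?_ (hLz β N x hx))
    have := MvPolynomial.le_totalDegree hβ
    rw [Finsupp.sum_fintype _ _ fun i => rfl] at this
    omega
  let Good : M → Prop := fun x => ∃ (q : MvPolynomial (Fin m) K) (C : ℕ),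
    q ≠ 0 ∧ zev (E := E) q • x ∈ Lat C
  have hzmul : ∀ p q : MvPolynomial (Fin m) K, zev (E := E) (p * q) = zev p * zev q := fun p q => by
    simp [zev]
  have hgood_add : ∀ x y, Good x → Good y → Good (x + y) := by
    rintro x y ⟨q, C, hq, hx⟩ ⟨q', C', hq', hy⟩
    refine ⟨q * q', (q'.totalDegree + C) + (q.totalDegree + C'), mul_ne_zero hq hq', ?_⟩
    rw [smul_add]
    refine add_mem (hLmono _ _ (Nat.le_add_right _ _) ?_) (hLmono _ _ (Nat.le_add_left _ _) ?_)
    · rw [mul_comm q q', hzmul, ← smul_smul]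
      exact hLq q' C _ hx
    · rw [hzmul, ← smul_smul]
      exact hLq q C' _ hy
  have hgood : ∀ y ∈ Submodule.span E b, ∀ e : E, Good (e • y) := by
    intro y hy
    induction hy using Submodule.span_induction with
    | mem v hv =>
      intro e
      obtain ⟨t, d, q, hq, he⟩ := hE e
      refine ⟨q, t.sup fun α => ∑ l, α l, hq, ?_⟩
      rw [smul_smul, he, Finset.sum_smul]
      refine sum_mem fun α hα => ?_
      rw [← zmon_comm, ← smul_smul, ← hD]
      refine Submodule.smul_mem _ _ (Submodule.subset_span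
        ⟨(⟨α, mem_mons.2 (Finset.le_sup (f := fun α => ∑ l, α l) hα)⟩, ⟨v, hv⟩), rfl⟩)
    | zero => intro e; exact ⟨1, 0, one_ne_zero, by simp⟩
    | add x x' _ _ h h' => intro e; rw [smul_add]; exact hgood_add _ _ (h e) (h' e)
    | smul c x _ h => intro e; rw [smul_smul]; exact h _
  have hcommon : ∀ U : Finset M, (∀ y ∈ U, Good y) →
      ∃ (q : MvPolynomial (Fin m) K) (C : ℕ), q ≠ 0 ∧ ∀ y ∈ U, zev (E := E) q • y ∈ Lat C := by
    intro U
    induction U using Finset.induction_on with
    | empty => exact fun _ => ⟨1, 0, one_ne_zero, by simp⟩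
    | insert y U _ ih =>
      intro hU
      obtain ⟨q, C, hq, h⟩ := ih fun z hz => hU z (Finset.mem_insert_of_mem hz)
      obtain ⟨q', C', hq', h'⟩ := hU y (Finset.mem_insert_self y U)
      refine ⟨q * q', (q'.totalDegree + C) + (q.totalDegree + C'), mul_ne_zero hq hq', fun z hz => ?_⟩
      rcases Finset.mem_insert.1 hz with rfl | hz
      · refine hLmono _ _ (Nat.le_add_left _ _) ?_
        rw [hzmul, ← smul_smul]
        exact hLq q C' _ h'
      · refine hLmono _ _ (Nat.le_add_right _ _) ?_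
        rw [mul_comm q q', hzmul, ← smul_smul]
        exact hLq q' C _ (h z hz)
  obtain ⟨Q, C₁, hQ, hQS⟩ := hcommon S fun y hy => by
    have := hgood y (by rw [hbspan]; exact Submodule.subset_span hy) 1
    rwa [one_smul] at this
  have hlat_fin : ∀ N, FiniteDimensional D (Lat N) := fun N =>
    FiniteDimensional.span_of_finite D (Set.finite_range _)
  have hgen : Gen φ (wt a m) Y := ⟨T, fun t ht => Submodule.subset_span
    ⟨t, ht, 0, by simp, by simp [monomial_zero']⟩, fun g => le_rfl⟩
  have hYfin : ∀ g, FiniteDimensional D (Y g) := hgen.finite (one_le_tg ha)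
  choose sy hsy using hSY
  obtain ⟨C₀, hC₀⟩ : ∃ C₀ : ℕ, ∀ y (hy : y ∈ S), sy y hy ≤ C₀ :=
    ⟨(∑ y : S, |sy y.1 y.2|).toNat, fun y hy => (le_abs_self _).trans
      ((Finset.single_le_sum (f := fun y : S => |sy y.1 y.2|) (fun _ _ => abs_nonneg _)
        (Finset.mem_univ ⟨y, hy⟩)).trans (Int.self_le_toNat _))⟩
  refine eq_of_sandwich (C := ((C₀ + C₁ : ℕ) : ℤ)) ?_ ?_ hn
  · refine eventually_atTop.2 ⟨(C₀ + C₁ : ℕ), fun t ht => ?_⟩
    obtain ⟨N, hN⟩ : ∃ N : ℕ, (N : ℤ) = t - (C₀ + C₁ : ℕ) := ⟨_, Int.toNat_of_nonneg (by omega)⟩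
    rw [← hN, ← card_mons, hr, hchi]
    have : Lat N ≤ Y ((((a : ℤ) * t, n)), 0) := Submodule.span_le.2 (by
      rintro _ ⟨⟨β, v⟩, rfl⟩
      refine hsy v.1 (hbS v.2) β.1 _ ?_
      have h1 : ((∑ l, β.1 l : ℕ) : ℤ) ≤ t - C₀ := by
        have := mem_mons.1 β.2
        omega
      have h2 := hC₀ v.1 (hbS v.2)
      have h3 : (C₀ : ℤ) ≤ (a : ℤ) * C₀ := le_mul_of_one_le_left (by positivity) (by omega)
      nlinarith)
    have := Submodule.finrank_mono this
    rw [hLat] at this
    exact_mod_cast (Nat.mul_comm _ _).le.trans this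
  · refine eventually_atTop.2 ⟨0, fun t ht => ?_⟩
    obtain ⟨N, rfl⟩ : ∃ N : ℕ, t = N := ⟨t.toNat, (Int.toNat_of_nonneg ht).symm⟩
    rw [← Nat.cast_add, ← card_mons, hr, hchi]
    let f : M →ₗ[D] M :=
      { toFun := fun x => zev (E := E) Q • x
        map_add' := smul_add _
        map_smul' := fun d x => zev_smul_comm φd hD Q d x }
    have hfinj : Function.Injective f := fun x y hxy => by
      have hu : zev (E := E) Q ≠ 0 := fun h0 => hQ
        (IsFractionRing.injective (MvPolynomial (Fin m) K) (FractionRing (MvPolynomial (Fin m) K))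
          ((algebraMap (FractionRing (MvPolynomial (Fin m) K)) E).injective (by simpa [zev] using h0)))
      exact smul_right_injective M hu hxy
    have hle : (Y ((((a : ℤ) * N, n)), 0)).map f ≤ Lat (N + (C₀ + C₁)) := by
      rw [Submodule.map_le_iff_le_comap]
      intro x hx
      refine (Submodule.span_le (p := (Lat (N + (C₀ + C₁))).comap f)).2 ?_ (hYS _ x hx)
      rintro _ ⟨β, hβ, y, hy, rfl⟩
      change zev (E := E) Q • zmon (E := E) (K := K) β • y ∈ Lat (N + (C₀ + C₁))
      rw [smul_smul, zev_comm, ← smul_smul]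
      refine hLmono _ _ ?_ (hLz β C₁ _ (hQS y hy))
      have : ((∑ l, β l : ℕ) : ℤ) ≤ N := le_of_mul_le_mul_left hβ (by exact_mod_cast ha)
      omega
    have := Submodule.finrank_mono hle
    rw [← (Submodule.equivMapOfInjective f hfinj _).finrank_eq, hLat] at this
    exact_mod_cast this.trans (Nat.mul_comm _ _).le

end Vale.Agent.P200.Deg.Index
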