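import Mathlib

/-!
Integer functions which are eventually affine in each coordinate.
-/

noncomputable section

namespace Vale.Agent.P200.Deg.Index

open Filter

variable {J : Type*} [Fintype J] [DecidableEq J]

/-- The dimensions of a free module over `K[u_r, v_r]`, shifted by `d`. -/
def line (d n : J → ℤ) : ℤ := ∏ r, (n r + 1 - d r)

lemma affine_line {f : ℤ → ℤ} {C : ℤ}
    (h : ∀ t, C ≤ t → f (t + 2) + f t = 2 * f (t + 1)) :
    ∀ t, C ≤ t → f t = f C + (t - C) * (f (C + 1) - f C) := by
  intro t ht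
  suffices H : f t = f C + (t - C) * (f (C + 1) - f C) ∧
      f (t + 1) = f C + (t + 1 - C) * (f (C + 1) - f C) from H.1
  induction t, ht using Int.leInduction with
  | base => exact ⟨by ring, by ring⟩
  | succ t ht ih =>
    refine ⟨ih.2, ?_⟩
    rw [add_assoc, show (1 : ℤ) + 1 = 2 from rfl]
    linear_combination (h t ht) + 2 * ih.2 - ih.1

omit [Fintype J] in
lemma exists_newton {C : ℤ} {y : (J → ℤ) → ℤ}
    (h : ∀ r, ∀ n : J → ℤ, (∀ i, C ≤ n i) →
      y (Function.update n r (n r + 2)) + y n = 2 * y (Function.update n r (n r + 1)))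
    (S : Finset J) :
    ∀ n₀ : J → ℤ, (∀ i, C ≤ n₀ i) → ∃ c : Finset J → ℤ, ∀ n : J → ℤ,
      (∀ i, C ≤ n i) → (∀ i ∉ S, n i = n₀ i) →
      y n = ∑ U ∈ S.powerset, c U * ∏ i ∈ U, (n i - C) := by
  classical
  induction S using Finset.induction_on with
  | empty =>
    intro n₀ _
    refine ⟨fun _ => y n₀, fun n _ hn => ?_⟩
    simp [show n = n₀ from funext fun i => hn i (Finset.notMem_empty i)]
  | insert r S hr ih =>
    intro n₀ h₀
    have hC : ∀ t, C ≤ t → ∀ n : J → ℤ, (∀ i, C ≤ n i) →
        ∀ i, C ≤ Function.update n r t i := by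
      intro t ht n hn i
      rcases eq_or_ne i r with rfl | hi
      · simpa using ht
      · simpa [hi] using hn i
    obtain ⟨c₀, hc₀⟩ := ih (Function.update n₀ r C) (hC C le_rfl n₀ h₀)
    obtain ⟨c₁, hc₁⟩ := ih (Function.update n₀ r (C + 1)) (hC (C + 1) (by omega) n₀ h₀)
    refine ⟨fun U => if r ∈ U then c₁ (U.erase r) - c₀ (U.erase r) else c₀ U,
      fun n hn hoff => ?_⟩
    have hoff' : ∀ t, ∀ i ∉ S, Function.update n r t i = Function.update n₀ r t i := by
      intro t i hi
      rcases eq_or_ne i r with rfl | hir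
      · simp
      · simpa [hir] using hoff i (by simp [hi, hir])
    have hl := affine_line (f := fun t => y (Function.update n r t)) (C := C) (fun t ht => by
      simpa using h r (Function.update n r t) (hC t ht n hn)) (n r) (hn r)
    rw [Function.update_eq_self, hc₀ _ (hC C le_rfl n hn) (hoff' C),
      hc₁ _ (hC (C + 1) (by omega) n hn) (hoff' (C + 1))] at hl
    have e : ∀ t, ∀ U ∈ S.powerset, ∏ i ∈ U, (Function.update n r t i - C) =
        ∏ i ∈ U, (n i - C) := fun t U hU => Finset.prod_congr rfl fun i hi => by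
      rw [Function.update_of_ne (fun he : i = r => hr (Finset.mem_powerset.1 hU (he ▸ hi)))]
    rw [Finset.sum_powerset_insert hr, hl, ← Finset.sum_sub_distrib, Finset.mul_sum]
    congr 1
    · refine Finset.sum_congr rfl fun U hU => ?_
      beta_reduce; rw [if_neg (fun h => hr (Finset.mem_powerset.1 hU h)), e C U hU]
    · refine Finset.sum_congr rfl fun U hU => ?_
      have hrU : r ∉ U := fun h => hr (Finset.mem_powerset.1 hU h)
      beta_reduce; rw [if_pos (Finset.mem_insert_self r U), Finset.erase_insert hrU, Finset.prod_insert hrU,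
        e C U hU, e (C + 1) U hU]
      ring

/-- An eventually affine integer function is a combination of translates of `line`. -/
theorem exists_line_comb {y : (J → ℤ) → ℤ}
    (h : ∀ r, ∀ᶠ n in atTop,
      y (Function.update n r (n r + 2)) + y n = 2 * y (Function.update n r (n r + 1))) :
    ∃ c : (J → ℤ) →₀ ℤ, ∀ᶠ n in atTop, y n = c.sum fun d x => x * line d n := by
  classical
  obtain ⟨N, hN⟩ := eventually_atTop.1 (eventually_all.2 h)
  obtain ⟨C, hC⟩ : ∃ C : ℤ, ∀ i, N i ≤ C :=
    ⟨∑ i, |N i|, fun i => (le_abs_self _).trans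
      (Finset.single_le_sum (f := fun i => |N i|) (fun _ _ => abs_nonneg _) (Finset.mem_univ i))⟩
  obtain ⟨c, hc⟩ := exists_newton (y := y) (C := C) (fun r n hn => hN n
    (fun i => (hC i).trans (hn i)) r) Finset.univ (fun _ => C) fun _ => le_rfl
  let lo : Finset J → (J → Fin 2) → J → ℤ := fun U W i =>
    if i ∈ U then (if W i = 0 then C + 1 else 0) else (if W i = 0 then 0 else 1)
  let sg : Finset J → (J → Fin 2) → ℤ := fun U W =>
    ∏ i, if i ∈ U then (if W i = 0 then 1 else 0) else (if W i = 0 then 1 else -1)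
  refine ⟨∑ U ∈ (Finset.univ : Finset J).powerset, ∑ W : J → Fin 2,
    Finsupp.single (lo U W) (c U * sg U W), eventually_atTop.2 ⟨fun _ => C, fun n hn => ?_⟩⟩
  rw [hc n hn fun i hi => absurd (Finset.mem_univ i) hi,
    ← Finsupp.sum_finsetSum_index (fun d => zero_mul _) fun d a b => add_mul a b _]
  refine Finset.sum_congr rfl fun U _ => ?_
  rw [← Finsupp.sum_finsetSum_index (fun d => zero_mul _) fun d a b => add_mul a b _,
    Finset.sum_congr rfl fun W _ => Finsupp.sum_single_index (zero_mul _)]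
  simp only [mul_assoc, ← Finset.mul_sum]
  congr 1
  have e : ∏ i, (if i ∈ U then n i - C else 1) = ∏ i ∈ U, (n i - C) := by
    rw [Finset.prod_ite_mem, Finset.univ_inter]
  have e' : ∀ i, (if i ∈ U then n i - C else 1) = ∑ b : Fin 2,
      (if i ∈ U then (if b = 0 then (1 : ℤ) else 0) else (if b = 0 then 1 else -1)) *
        (n i + 1 - if i ∈ U then (if b = 0 then C + 1 else 0) else (if b = 0 then 0 else 1)) :=
    fun i => by by_cases hi : i ∈ U <;> simp [hi, Fin.sum_univ_two]
  rw [← e, Finset.prod_congr rfl fun i _ => e' i, Fintype.prod_sum]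
  refine Finset.sum_congr rfl fun W _ => ?_
  rw [Finset.prod_mul_distrib]
  rfl

/-- Translates of `line`, summed over a box of shifts, are products of the free block sizes. -/
lemma sum_line (a : ℕ) (d n : J → ℤ) :
    ∑ α : J → Fin a, line d (n - fun r => ((α r : ℕ) : ℤ)) =
      ∏ r, ((a : ℤ) * (n r - d r) + a - (a.choose 2 : ℤ)) := by
  simp only [line, Pi.sub_apply]
  rw [← Fintype.prod_sum fun r (j : Fin a) => n r - ((j : ℕ) : ℤ) + 1 - d r]
  refine Finset.prod_congr rfl fun r _ => ?_
  have h : (a.choose 2 : ℤ) = ∑ j : Fin a, ((j : ℕ) : ℤ) := by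
    rw [← Nat.cast_sum, Fin.sum_univ_eq_sum_range (fun j => j), Finset.sum_range_id,
      Nat.choose_two_right]
  have h2 : ∀ j : Fin a, n r - ((j : ℕ) : ℤ) + 1 - d r = (n r - d r + 1) - ((j : ℕ) : ℤ) :=
    fun j => by ring
  rw [h, Finset.sum_congr rfl fun j _ => h2 j, Finset.sum_sub_distrib, Finset.sum_const, Finset.card_univ,
    Fintype.card_fin, nsmul_eq_mul]
  ring

end Vale.Agent.P200.Deg.Index
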