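import Vale.Agent.P200.Deg.Index.Vanish
import Vale.Agent.P200.Deg.Index.Affine

/-!
Totals over `s`: a multiple of the geometric factors gives a combination of the free block sizes.
-/

noncomputable section

namespace Vale.Agent.P200.Deg.Index

open Filter

variable {J : Type*} [DecidableEq J] [Fintype J]

/-- Passing to totals over `s`. -/
theorem exists_free_comb {a : ℕ} {g F : Fn J} (hF : F ∈ U₀ J)
    (h : g - act (∏ r : J, ∑ j : Fin a, T ((j : ℕ) • ((1 : ℤ), Pi.single r (1 : ℤ)))) F ∈ Ev J) :
    ∃ c : (J → ℤ) →₀ ℤ, ∀ᶠ n in atTop, tot g n =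
      c.sum fun d x => x * ∏ r, ((a : ℤ) * (n r + d r) + a - (a.choose 2 : ℤ)) := by
  classical
  simp only [U₀, Submodule.mem_inf, Submodule.mem_iInf, Submodule.mem_comap] at hF
  set y : (J → ℤ) → ℤ := tot F
  have hy : ∀ᶠ n in atTop, tot F n = y n := Eventually.of_forall fun n => rfl
  have hzero : ∀ n, tot (0 : Fn J) n = 0 := fun n => by simp [tot]
  have hdiff : ∀ r, ∀ᶠ n in atTop,
      y (Function.update n r (n r + 2)) + y n = 2 * y (Function.update n r (n r + 1)) := by
    intro r
    set e : J → ℤ := Pi.single r 1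
    set u : Dg J := (0, e)
    have hp : (1 - T u) ^ 2 = AddMonoidAlgebra.single 0 (1 : ℤ) +
        AddMonoidAlgebra.single u (-2) + AddMonoidAlgebra.single (u + u) 1 := by
      rw [show (1 - T u) ^ 2 = 1 + (-(T u) + -(T u)) + T u * T u by ring,
        AddMonoidAlgebra.one_def, AddMonoidAlgebra.single_mul_single, mul_one,
        ← AddMonoidAlgebra.single_neg, ← AddMonoidAlgebra.single_add]
      norm_num
    have h2 := (tot_congr (g' := 0) (by rw [sub_zero]; exact hF.2 r)).and
      (tot_act ((1 - T u) ^ 2) hF.1 hy)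
    refine (eventually_sub h2 (-(e + e))).mono fun n hn => ?_
    rw [sub_neg_eq_add] at hn
    have h3 := hn.2
    rw [hn.1, hzero, hp, AddMonoidAlgebra.coeff_add, AddMonoidAlgebra.coeff_add,
      AddMonoidAlgebra.coeff_single, AddMonoidAlgebra.coeff_single, AddMonoidAlgebra.coeff_single,
      Finsupp.sum_add_index' (fun d => zero_mul _) (fun d a b => add_mul a b _),
      Finsupp.sum_add_index' (fun d => zero_mul _) (fun d a b => add_mul a b _),
      Finsupp.sum_single_index (zero_mul _), Finsupp.sum_single_index (zero_mul _),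
      Finsupp.sum_single_index (zero_mul _)] at h3
    simp only [u, Prod.snd_zero, sub_zero, Prod.snd_add] at h3
    rw [show n + (e + e) - e = n + e by abel, show n + (e + e) - (e + e) = n by abel] at h3
    rw [show Function.update n r (n r + 2) = n + (e + e) by
        funext i; rcases eq_or_ne i r with rfl | hi <;> simp [e, *],
      show Function.update n r (n r + 1) = n + e by
        funext i; rcases eq_or_ne i r with rfl | hi <;> simp [e, *]]
    linarith
  obtain ⟨c, hc⟩ := exists_line_comb hdiff
  refine ⟨c.mapDomain Neg.neg, ?_⟩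
  have hshift : ∀ᶠ n in atTop, ∀ α : J → Fin a,
      y (n - fun r => ((α r : ℕ) : ℤ)) = c.sum fun d x => x * line d (n - fun r => ((α r : ℕ) : ℤ)) :=
    eventually_all.2 fun α => eventually_sub hc _
  refine ((tot_congr h).and ((tot_act (∏ r : J, ∑ j : Fin a,
    T ((j : ℕ) • ((1 : ℤ), Pi.single r (1 : ℤ)))) hF.1 hy).and hshift)).mono fun n hn => ?_
  rw [hn.1, hn.2.1, Fintype.prod_sum, AddMonoidAlgebra.coeff_sum,
    ← Finsupp.sum_finsetSum_index (fun d => zero_mul _) fun d a b => add_mul a b _,
    Finsupp.sum_mapDomain_index (fun d => zero_mul _) (fun d a b => add_mul a b _)]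
  have e : ∀ α : J → Fin a, ∏ r, T ((α r : ℕ) • ((1 : ℤ), Pi.single r (1 : ℤ))) =
      AddMonoidAlgebra.single (∑ r, (α r : ℕ) • ((1 : ℤ), Pi.single r (1 : ℤ))) (1 : ℤ) := by
    intro α
    induction (Finset.univ : Finset J) using Finset.induction_on with
    | empty => simp [AddMonoidAlgebra.one_def]
    | insert i S hi ih =>
      rw [Finset.prod_insert hi, ih, AddMonoidAlgebra.single_mul_single, Finset.sum_insert hi,
        mul_one]
  have e' : ∀ α : J → Fin a, (∑ r, (α r : ℕ) • ((1 : ℤ), Pi.single r (1 : ℤ))).2 =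
      fun r => ((α r : ℕ) : ℤ) := fun α => by
    funext i
    simp [Prod.snd_sum, Finset.sum_apply, Pi.single_apply]
  rw [Finset.sum_congr rfl fun α _ => by
    rw [e α, AddMonoidAlgebra.coeff_single, Finsupp.sum_single_index (zero_mul _), one_mul, e' α,
      hn.2.2 α]]
  simp only [Finsupp.sum]
  rw [Finset.sum_comm]
  refine Finset.sum_congr rfl fun d _ => ?_
  rw [← Finset.mul_sum, sum_line]
  simp [sub_eq_add_neg]

end Vale.Agent.P200.Deg.Index
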