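import Vale.Agent.P200.Deg.Index.Graded

/-!
The exterior algebra operators on `Finset (Fin N) → W` and the graded families on it.
-/

noncomputable section

namespace Vale.Agent.P200.Deg.Index

open MvPolynomial Module

set_option linter.unusedSectionVars false

variable {K D W σ G : Type*} [Field K] [DivisionRing D] [Algebra K D] [AddCommGroup W]
  [Module K W] [Module D W] [SMulCommClass D K W] [IsScalarTower K D W] [AddCommGroup G]
variable {N : ℕ}

/-- The sign of moving `i` to its place in `S`. -/
def sgn (i : Fin N) (S : Finset (Fin N)) : K := (-1) ^ (S.filter (· < i)).card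

lemma sgn_insert {i j : Fin N} {S : Finset (Fin N)} (h : j ∉ S) :
    (sgn i (insert j S) : K) = sgn i S * if j < i then -1 else 1 := by
  unfold sgn
  rw [Finset.filter_insert]
  split_ifs with hj
  · rw [Finset.card_insert_of_notMem (by simp [h]), pow_succ]
  · rw [mul_one]

lemma sgn_erase {i j : Fin N} {S : Finset (Fin N)} (h : j ∈ S) :
    (sgn i (S.erase j) : K) = sgn i S * if j < i then -1 else 1 := by
  conv_rhs => rw [← Finset.insert_erase h, sgn_insert (Finset.notMem_erase j S)]
  split_ifs <;> ring

lemma sgn_sq (i : Fin N) (S : Finset (Fin N)) : (sgn i S : K) * sgn i S = 1 := by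
  rw [sgn, ← pow_add, ← two_mul, pow_mul, neg_one_sq, one_pow]

variable (K D W)


/-- Exterior multiplication by the `i`th basis vector. -/
def ins (i : Fin N) : Module.End D (Finset (Fin N) → W) :=
  LinearMap.pi fun S => if i ∈ S then (sgn i S : K) • LinearMap.proj (S.erase i) else 0

/-- Contraction by the `i`th basis vector. -/
def con (i : Fin N) : Module.End D (Finset (Fin N) → W) :=
  LinearMap.pi fun S => if i ∈ S then 0 else (sgn i S : K) • LinearMap.proj (insert i S)

variable {K D W}

lemma ins_apply (i : Fin N) (f : Finset (Fin N) → W) (S : Finset (Fin N)) :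
    ins K D W i f S = if i ∈ S then (sgn i S : K) • f (S.erase i) else 0 := by
  rw [ins, LinearMap.pi_apply]; split_ifs <;> rfl

lemma con_apply (i : Fin N) (f : Finset (Fin N) → W) (S : Finset (Fin N)) :
    con K D W i f S = if i ∈ S then 0 else (sgn i S : K) • f (insert i S) := by
  rw [con, LinearMap.pi_apply]; split_ifs <;> rfl

lemma ins_sq (i : Fin N) : ins K D W i * ins K D W i = 0 :=
  LinearMap.ext fun f => funext fun S => by simp [ins_apply]

lemma con_sq (i : Fin N) : con K D W i * con K D W i = 0 :=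
  LinearMap.ext fun f => funext fun S => by simp [con_apply]

lemma ins_anti (i j : Fin N) : ins K D W i * ins K D W j + ins K D W j * ins K D W i = 0 := by
  rcases eq_or_ne i j with rfl | hij
  · rw [ins_sq, add_zero]
  refine LinearMap.ext fun f => funext fun S => ?_
  simp only [LinearMap.add_apply, Pi.add_apply, Module.End.mul_apply, ins_apply,
    Finset.mem_erase, LinearMap.zero_apply, Pi.zero_apply]
  by_cases hi : i ∈ S <;> by_cases hj : j ∈ S <;>
    simp [hi, hj, hij, hij.symm]
  rw [sgn_erase hi, sgn_erase hj, smul_smul, smul_smul, Finset.erase_right_comm (a := i) (b := j),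
    ← add_smul]
  rcases lt_or_gt_of_ne hij with h | h <;>
    · rw [if_pos h, if_neg h.not_gt]; ring_nf; simp

lemma con_anti (i j : Fin N) : con K D W i * con K D W j + con K D W j * con K D W i = 0 := by
  rcases eq_or_ne i j with rfl | hij
  · rw [con_sq, add_zero]
  refine LinearMap.ext fun f => funext fun S => ?_
  simp only [LinearMap.add_apply, Pi.add_apply, Module.End.mul_apply, con_apply,
    Finset.mem_insert, LinearMap.zero_apply, Pi.zero_apply]
  by_cases hi : i ∈ S <;> by_cases hj : j ∈ S <;>
    simp [hi, hj, hij, hij.symm]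
  rw [sgn_insert hi, sgn_insert hj, smul_smul, smul_smul, Finset.insert_comm i j, ← add_smul]
  rcases lt_or_gt_of_ne hij with h | h <;>
    · rw [if_pos h, if_neg h.not_gt]; ring_nf; simp

lemma con_ins (i j : Fin N) :
    con K D W i * ins K D W j + ins K D W j * con K D W i = if i = j then 1 else 0 := by
  refine LinearMap.ext fun f => funext fun S => ?_
  rcases eq_or_ne i j with rfl | hij
  · rw [if_pos rfl]
    simp only [LinearMap.add_apply, Pi.add_apply, Module.End.mul_apply, con_apply, ins_apply,
      Module.End.one_apply]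
    by_cases hi : i ∈ S
    · simp [hi, Finset.insert_erase hi, smul_smul, sgn_erase hi, sgn_sq]
    · simp [hi, Finset.erase_insert hi, smul_smul, sgn_insert hi, sgn_sq]
  rw [if_neg hij]
  simp only [LinearMap.add_apply, Pi.add_apply, Module.End.mul_apply, con_apply, ins_apply,
    Finset.mem_insert, Finset.mem_erase, LinearMap.zero_apply, Pi.zero_apply]
  by_cases hi : i ∈ S <;> by_cases hj : j ∈ S <;>
    simp [hi, hj, hij, hij.symm]
  rw [sgn_erase hj, sgn_insert hi, smul_smul, smul_smul, Finset.erase_insert_of_ne hij, ← add_smul]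
  rcases lt_or_gt_of_ne hij with h | h <;>
    · rw [if_pos h, if_neg h.not_gt]; ring_nf; simp

variable (φ : MvPolynomial σ K →ₐ[K] Module.End D W)

/-- The componentwise action. -/
def liftOp (N : ℕ) : MvPolynomial σ K →ₐ[K] Module.End D (Finset (Fin N) → W) where
  toFun p := (φ p).compLeft _
  map_one' := LinearMap.ext fun f => funext fun S => by simp
  map_mul' p q := LinearMap.ext fun f => funext fun S => by simp [map_mul]
  map_zero' := LinearMap.ext fun f => funext fun S => by simp
  map_add' p q := LinearMap.ext fun f => funext fun S => by simp [map_add]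
  commutes' c := LinearMap.ext fun f => funext fun S => by simp

lemma liftOp_apply (p : MvPolynomial σ K) (f : Finset (Fin N) → W) (S : Finset (Fin N)) :
    liftOp φ N p f S = φ p (f S) := rfl

lemma liftOp_commute_ins (p : MvPolynomial σ K) (i : Fin N) :
    liftOp φ N p * ins K D W i = ins K D W i * liftOp φ N p :=
  LinearMap.ext fun f => funext fun S => by
    simp only [Module.End.mul_apply, liftOp_apply, ins_apply]
    split_ifs <;> simp

lemma liftOp_commute_con (p : MvPolynomial σ K) (i : Fin N) :
    liftOp φ N p * con K D W i = con K D W i * liftOp φ N p :=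
  LinearMap.ext fun f => funext fun S => by
    simp only [Module.End.mul_apply, liftOp_apply, con_apply]
    split_ifs <;> simp

/-- Exterior multiplication by a vector of polynomials. -/
def wedge (c : Fin N → MvPolynomial σ K) : Module.End D (Finset (Fin N) → W) :=
  ∑ i, liftOp φ N (c i) * ins K D W i

/-- Contraction by a vector of polynomials. -/
def contr (c : Fin N → MvPolynomial σ K) : Module.End D (Finset (Fin N) → W) :=
  ∑ i, liftOp φ N (c i) * con K D W i

lemma sum_sum_anti {R A : Type*} [CommSemiring R] [Ring A] (ψ : R →+* A) (e : Fin N → A)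
    (hc : ∀ p i, ψ p * e i = e i * ψ p) (he : ∀ i j, e i * e j + e j * e i = 0)
    (he0 : ∀ i, e i * e i = 0) (c c' : Fin N → R) :
    (∑ i, ψ (c i) * e i) * (∑ i, ψ (c' i) * e i) +
      (∑ i, ψ (c' i) * e i) * (∑ i, ψ (c i) * e i) = 0 ∧
    (∑ i, ψ (c i) * e i) * (∑ i, ψ (c i) * e i) = 0 := by
  have h : ∀ c c' : Fin N → R, (∑ i, ψ (c i) * e i) * (∑ i, ψ (c' i) * e i) =
      ∑ i, ∑ j, ψ (c i * c' j) * (e i * e j) := fun c c' => by
    rw [Finset.sum_mul_sum]
    refine Finset.sum_congr rfl fun i _ => Finset.sum_congr rfl fun j _ => ?_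
    rw [map_mul, mul_assoc, ← mul_assoc (e i), ← hc]
    simp only [mul_assoc]
  refine ⟨?_, ?_⟩
  · rw [h, h, Finset.sum_comm (f := fun i j => ψ (c' i * c j) * (e i * e j)),
      ← Finset.sum_add_distrib]
    refine Finset.sum_eq_zero fun i _ => ?_
    rw [← Finset.sum_add_distrib]
    refine Finset.sum_eq_zero fun j _ => ?_
    rw [mul_comm (c' j), ← mul_add, he, mul_zero]
  · rw [h, ← Finset.sum_product']
    refine Finset.sum_involution (fun p _ => p.swap) (fun p _ => ?_) (fun p _ hp => ?_)
      (fun p _ => Finset.mem_product.2 ⟨Finset.mem_univ _, Finset.mem_univ _⟩) fun p _ => p.swap_swap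
    · rw [Prod.fst_swap, Prod.snd_swap, mul_comm (c p.2), ← mul_add, he, mul_zero]
    · intro hs
      obtain ⟨a, b⟩ := p
      simp only [Prod.swap_prod_mk, Prod.mk.injEq] at hs
      simp [hs.2, he0] at hp

variable {φ}

lemma wedge_anti (c c' : Fin N → MvPolynomial σ K) :
    wedge φ c * wedge φ c' + wedge φ c' * wedge φ c = 0 :=
  (sum_sum_anti (liftOp φ N).toRingHom (ins K D W) (liftOp_commute_ins φ) ins_anti ins_sq c c').1

lemma wedge_sq (c : Fin N → MvPolynomial σ K) : wedge φ c * wedge φ c = 0 :=
  (sum_sum_anti (liftOp φ N).toRingHom (ins K D W) (liftOp_commute_ins φ) ins_anti ins_sq c c).2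

lemma contr_anti (c c' : Fin N → MvPolynomial σ K) :
    contr φ c * contr φ c' + contr φ c' * contr φ c = 0 :=
  (sum_sum_anti (liftOp φ N).toRingHom (con K D W) (liftOp_commute_con φ) con_anti con_sq c c').1

lemma contr_sq (c : Fin N → MvPolynomial σ K) : contr φ c * contr φ c = 0 :=
  (sum_sum_anti (liftOp φ N).toRingHom (con K D W) (liftOp_commute_con φ) con_anti con_sq c c).2

lemma contr_wedge (c c' : Fin N → MvPolynomial σ K) :
    contr φ c * wedge φ c' + wedge φ c' * contr φ c = liftOp φ N (∑ i, c i * c' i) := by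
  simp only [contr, wedge, Finset.sum_mul_sum, map_sum]
  rw [Finset.sum_comm (f := fun i j => liftOp φ N (c' i) * ins K D W i *
    (liftOp φ N (c j) * con K D W j)), ← Finset.sum_add_distrib]
  refine Finset.sum_congr rfl fun i _ => ?_
  rw [← Finset.sum_add_distrib]
  have h : ∀ j, liftOp φ N (c i) * con K D W i * (liftOp φ N (c' j) * ins K D W j) +
      liftOp φ N (c' j) * ins K D W j * (liftOp φ N (c i) * con K D W i) =
      liftOp φ N (c i * c' j) * if i = j then 1 else 0 := fun j => by
    rw [← con_ins (K := K) (D := D) (W := W), mul_add, mul_assoc, ← mul_assoc (con K D W i), ← liftOp_commute_con, mul_assoc,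
      mul_assoc (liftOp φ N (c' j)), ← mul_assoc (ins K D W j), ← liftOp_commute_ins, map_mul]
    simp only [← mul_assoc]
    rw [← map_mul, ← map_mul, mul_comm (c' j)]
  simp [h]

/-- The Koszul family. -/
def kos (w : Fin N → G) (X : G → Submodule D W) (g : G) : Submodule D (Finset (Fin N) → W) :=
  Submodule.pi Set.univ fun S => X (g - ∑ i ∈ S, w i)

lemma mem_kos {w : Fin N → G} {X : G → Submodule D W} {g : G} {f : Finset (Fin N) → W} :
    f ∈ kos w X g ↔ ∀ S, f S ∈ X (g - ∑ i ∈ S, w i) := by simp [kos]

variable {wt : σ → G} {w : Fin N → G}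

lemma stable_kos {X : G → Submodule D W} (hX : Stable φ wt X) :
    Stable (liftOp φ N) wt (kos w X) := fun i g f hf => mem_kos.2 fun S => by
  rw [add_sub_right_comm]
  exact hX i _ _ (mem_kos.1 hf S)

lemma wedge_mem {X : G → Submodule D W} (hX : Stable φ wt X) {c : Fin N → MvPolynomial σ K}
    {d : Fin N → G} (hc : ∀ i, IsWeightedHomogeneous wt (c i) (d i)) {q : G}
    (hq : ∀ i, c i = 0 ∨ d i + w i = q) {g : G} {f : Finset (Fin N) → W} (hf : f ∈ kos w X g) :
    wedge φ c f ∈ kos w X (g + q) := mem_kos.2 fun S => by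
  rw [wedge, LinearMap.sum_apply, Finset.sum_apply]
  refine sum_mem fun i _ => ?_
  rw [Module.End.mul_apply, liftOp_apply, ins_apply]
  rcases hq i with h | h
  · simp [h]
  split_ifs with hi
  · rw [LinearMap.map_smul_of_tower]
    refine Submodule.smul_of_tower_mem _ _ ?_
    convert hX.homog (hc i) (mem_kos.1 hf (S.erase i)) using 2
    rw [← h, ← Finset.sum_erase_add S w hi]
    abel
  · simp

lemma contr_mem {X : G → Submodule D W} (hX : Stable φ wt X) {c : Fin N → MvPolynomial σ K}
    {d : Fin N → G} (hc : ∀ i, IsWeightedHomogeneous wt (c i) (d i)) {q : G}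
    (hq : ∀ i, c i = 0 ∨ d i = q + w i) {g : G} {f : Finset (Fin N) → W} (hf : f ∈ kos w X g) :
    contr φ c f ∈ kos w X (g + q) := mem_kos.2 fun S => by
  rw [contr, LinearMap.sum_apply, Finset.sum_apply]
  refine sum_mem fun i _ => ?_
  rw [Module.End.mul_apply, liftOp_apply, con_apply]
  rcases hq i with h | h
  · simp [h]
  split_ifs with hi
  · simp
  · rw [LinearMap.map_smul_of_tower]
    refine Submodule.smul_of_tower_mem _ _ ?_
    convert hX.homog (hc i) (mem_kos.1 hf (insert i S)) using 2
    rw [h, Finset.sum_insert hi]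
    abel

lemma gen_kos {X : G → Submodule D W} (hX : Gen φ wt X) : Gen (liftOp φ N) wt (kos w X) := by
  classical
  obtain ⟨T, hTX, hT⟩ := hX
  let T' : Finset (G × (Finset (Fin N) → W)) :=
    (Finset.univ ×ˢ T).image fun p => (p.2.1 + ∑ i ∈ p.1, w i, Pi.single p.1 p.2.2)
  refine ⟨T', ?_, fun g f hf => ?_⟩
  · simp only [T', Finset.mem_image]
    rintro _ ⟨⟨S, t⟩, hp, rfl⟩
    refine mem_kos.2 fun S' => ?_
    rcases eq_or_ne S' S with rfl | h
    · simpa using hTX t (Finset.mem_product.1 hp).2
    · simp [Pi.single_eq_of_ne h]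
  rw [← Finset.univ_sum_single f]
  refine sum_mem fun S _ => ?_
  suffices genSpan φ wt T (g - ∑ i ∈ S, w i) ≤
      (genSpan (liftOp φ N) wt T' g).comap (LinearMap.single D (fun _ => W) S) from
    this (hT _ (mem_kos.1 hf S))
  refine Submodule.span_le.2 ?_
  rintro _ ⟨t, ht, b, hb, rfl⟩
  refine Submodule.subset_span ⟨_, Finset.mem_image.2
    ⟨(S, t), Finset.mem_product.2 ⟨Finset.mem_univ _, ht⟩, rfl⟩, b, ?_, funext fun S' => ?_⟩
  · rw [add_right_comm, hb, sub_add_cancel]
  · rw [liftOp_apply]
    rcases eq_or_ne S' S with rfl | h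
    · simp
    · simp [Pi.single_eq_of_ne h]

lemma finrank_kos (X : G → Submodule D W) (g : G) [∀ g', FiniteDimensional D (X g')] :
    finrank D (kos w X g) = ∑ S : Finset (Fin N), finrank D (X (g - ∑ i ∈ S, w i)) := by
  let e : kos w X g ≃ₗ[D] (∀ S, X (g - ∑ i ∈ S, w i)) :=
    { toFun := fun f S => ⟨f.1 S, mem_kos.1 f.2 S⟩
      invFun := fun f => ⟨fun S => (f S).1, mem_kos.2 fun S => (f S).2⟩
      left_inv := fun f => rfl
      right_inv := fun f => rfl
      map_add' := fun f f' => rfl
      map_smul' := fun c f => rfl }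
  rw [e.finrank_eq, Module.finrank_pi_fintype]

end Vale.Agent.P200.Deg.Index
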