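import Mathlib

/-!
Minors of a matrix of forms which has full rank off the irrelevant locus.
-/

noncomputable section

namespace Vale.Agent.P200.Deg.Index

open MvPolynomial

variable {R σ G : Type*} [CommRing R] [AddCommMonoid G] {wt : σ → G}

lemma det_homog {J : Type*} [Fintype J] [DecidableEq J] {Q : Matrix J J (MvPolynomial σ R)}
    {d : J → G} (h : ∀ r i, IsWeightedHomogeneous wt (Q r i) (d r)) :
    IsWeightedHomogeneous wt Q.det (∑ r, d r) := by
  rw [← mem_weightedHomogeneousSubmodule, Matrix.det_apply]
  refine sum_mem fun e _ => ?_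
  have h1 := IsWeightedHomogeneous.prod Finset.univ (fun i => Q (e i) i) (fun i => d (e i))
    fun i _ => h (e i) i
  rw [Equiv.sum_comp e d] at h1
  rcases Int.units_eq_one_or (Equiv.Perm.sign e) with hs | hs <;> rw [hs]
  · rw [one_smul]; exact h1
  · rw [Units.neg_smul, one_smul]; exact neg_mem h1

lemma adjugate_homog {J : Type*} [Fintype J] [DecidableEq J] {Q : Matrix J J (MvPolynomial σ R)}
    {d : J → G} (h : ∀ r i, IsWeightedHomogeneous wt (Q r i) (d r)) (i s : J) :
    IsWeightedHomogeneous wt (Q.adjugate i s) (∑ r ∈ Finset.univ.erase s, d r) := by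
  rw [Matrix.adjugate_apply]
  have h1 := det_homog (wt := wt) (Q := Q.updateRow s (Pi.single i 1))
    (d := Function.update d s 0) fun r j => by
    rcases eq_or_ne r s with rfl | hr
    · rw [Matrix.updateRow_self, Function.update_self]
      rcases eq_or_ne j i with rfl | hj
      · rw [Pi.single_eq_same]; exact isWeightedHomogeneous_one _ _
      · rw [Pi.single_eq_of_ne hj]; exact isWeightedHomogeneous_zero _ _ _
    · rw [Matrix.updateRow_ne hr, Function.update_of_ne hr]; exact h r j
  rwa [Finset.sum_update_of_mem (Finset.mem_univ s), zero_add,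
    Finset.sdiff_singleton_eq_erase] at h1

variable {K : Type*} [Field K] {J : Type*} [Fintype J] [DecidableEq J] {m a : ℕ}

/-- The `l`th form on block `r`, in the two variables of the block. -/
def form0 (c : J → Fin m → Fin (a + 1) → K) (r : J) (l : Fin m) : MvPolynomial (J × Fin 2) K :=
  ∑ p : Fin (a + 1), C (c r l p) * (X (r, 0) ^ (p : ℕ) * X (r, 1) ^ (a - (p : ℕ)))

/-- Powers of the irrelevant monomials lie in the ideal of the maximal minors. -/
theorem irrelevant_le_minors (c : J → Fin m → Fin (a + 1) → K)
    (hind : ∀ x : J → Fin 2 → AlgebraicClosure K, (∀ r, x r ≠ 0) →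
      LinearIndependent (AlgebraicClosure K) fun r l =>
        ∑ p : Fin (a + 1), algebraMap K (AlgebraicClosure K) (c r l p) *
          x r 0 ^ (p : ℕ) * x r 1 ^ (a - (p : ℕ))) :
    ∃ N : ℕ, ∀ ch : J → Fin 2, (∏ r, X (R := K) (r, ch r)) ^ N ∈
      Ideal.span (Set.range fun e : J → Fin m =>
        (Matrix.of fun r i => form0 c r (e i)).det) := by
  classical
  set I : Ideal (MvPolynomial (J × Fin 2) K) := Ideal.span (Set.range fun e : J → Fin m =>
    (Matrix.of fun r i => form0 c r (e i)).det) with hI
  have h : ∀ ch : J → Fin 2, ∃ N : ℕ, (∏ r, X (R := K) (r, ch r)) ^ N ∈ I := by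
    intro ch
    suffices (∏ r, X (R := K) (r, ch r)) ∈ I.radical from this
    rw [← vanishingIdeal_zeroLocus_eq_radical (K := AlgebraicClosure K)]
    intro y hy
    rw [map_prod]
    by_contra hne
    rw [Finset.prod_eq_zero_iff] at hne
    push Not at hne
    let v : J → Fin m → AlgebraicClosure K := fun r l => aeval y (form0 c r l)
    have hv : LinearIndependent (AlgebraicClosure K) v := by
      have := hind (fun r b => y (r, b)) fun r h0 => by
        simpa using hne r (Finset.mem_univ r) (by simpa using congrFun h0 (ch r))
      convert this using 1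
      funext r l
      simp [v, form0, mul_assoc]
    let cols : Fin m → J → AlgebraicClosure K := fun l r => v r l
    have htop : Submodule.span (AlgebraicClosure K) (Set.range cols) = ⊤ := by
      refine Submodule.eq_top_of_finrank_eq ?_
      rw [Module.finrank_pi]
      have h1 := LinearIndependent.rank_matrix (M := Matrix.of v) hv
      rwa [Matrix.rank_eq_finrank_span_cols] at h1
    obtain ⟨b, hb, hsp, hli⟩ := exists_linearIndependent (AlgebraicClosure K) (Set.range cols)
    have hbase : Module.finrank (AlgebraicClosure K) (J → AlgebraicClosure K) = Nat.card b :=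
      Module.finrank_eq_nat_card_basis (Module.Basis.mk hli (by
        rw [Subtype.range_coe, hsp, htop]))
    rw [Module.finrank_pi] at hbase
    have hfin : Finite b := Set.Finite.to_subtype ((Set.finite_range cols).subset hb)
    obtain ⟨e'⟩ : Nonempty (J ≃ b) :=
      ⟨(Fintype.equivFin J).trans ((finCongr hbase).trans (Finite.equivFin b).symm)⟩
    choose e he using fun i : J => hb (e' i).2
    have hdet : ((Matrix.of fun r i => aeval y (form0 c r (e i))) :
        Matrix J J (AlgebraicClosure K)).det ≠ 0 := by
      refine isUnit_iff_ne_zero.1 ((Matrix.isUnit_iff_isUnit_det _).1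
        (Matrix.linearIndependent_cols_iff_isUnit.1 ?_))
      have : (Matrix.of fun r i => aeval y (form0 c r (e i))).col =
          (Subtype.val : b → J → AlgebraicClosure K) ∘ e' := by
        funext i r
        exact congrFun (he i) r
      rw [this]
      exact hli.comp _ e'.injective
    refine hdet ?_
    have h0 := hy _ (Ideal.subset_span ⟨e, rfl⟩)
    rw [AlgHom.map_det] at h0
    exact h0
  choose N hN using h
  exact ⟨∑ ch, N ch, fun ch => Ideal.pow_mem_of_pow_mem _ (hN ch)
    (Finset.single_le_sum (fun _ _ => Nat.zero_le _) (Finset.mem_univ ch))⟩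

end Vale.Agent.P200.Deg.Index
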