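import Vale.Agent.P200.Deg.Index.Vanish
import Vale.Agent.P200.Deg.Index.Koszul
import Vale.Agent.P200.Deg.Index.Minors

/-!
The vectors of forms of the blocks, their cofactor vectors, and the degrees of both.
-/

noncomputable section

namespace Vale.Agent.P200.Deg.Index

open MvPolynomial Module

set_option linter.unusedSectionVars false

variable {J : Type*} [DecidableEq J] [Fintype J] {K D W : Type*} [Field K] [DivisionRing D]
  [Algebra K D] [AddCommGroup W] [Module K W] [Module D W] [SMulCommClass D K W]
  [IsScalarTower K D W] {m a : ℕ}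

/-- The variables of the blocks among all variables. -/
abbrev emb (p : J × Fin 2) : Var m J := .inr (.inl p)

/-- The vector of coefficients of `z` in the relation of block `r`. -/
def fv (c : J → Fin m → Fin (a + 1) → K) (r : J) : Fin (m + 1) → MvPolynomial (Var m J) K :=
  Fin.cons 0 fun l => rename emb (form0 c r l)

/-- The variables `λ, z_1 .. z_m`. -/
def zv : Fin (m + 1) → MvPolynomial (Var m J) K := fun i => X (.inl i)

/-- The relation of block `r`. -/
def lin (c : J → Fin m → Fin (a + 1) → K) (r : J) : MvPolynomial (Var m J) K :=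
  ∑ i, zv i * fv c r i

/-- A square matrix of forms. -/
def minor (c : J → Fin m → Fin (a + 1) → K) (e : J → Fin m) :
    Matrix J J (MvPolynomial (Var m J) K) :=
  Matrix.of fun r i => rename emb (form0 c r (e i))

/-- The cofactor vector of row `s`. -/
def cof (c : J → Fin m → Fin (a + 1) → K) (e : J → Fin m) (s : J) :
    Fin (m + 1) → MvPolynomial (Var m J) K :=
  Fin.cons 0 fun l => ∑ i ∈ Finset.univ.filter (fun i => e i = l), (minor c e).adjugate i s

/-- The degree of the forms of block `r`. -/
def degF (a : ℕ) (r : J) : PDg J := ((0, Pi.single r (a : ℤ)), 0)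

/-- The degree of exterior multiplication by the forms of block `r`. -/
def qE (a : ℕ) (r : J) : PDg J := (((a : ℤ), Pi.single r (a : ℤ)), 1)

/-- The degree of the contraction by the cofactors of row `s`. -/
def qI (a : ℕ) (s : J) : PDg J :=
  ((-(a : ℤ), ∑ r ∈ Finset.univ.erase s, Pi.single r (a : ℤ)), 1)

/-- The degree of the basis vectors of the Koszul complex. -/
def wk (a m : ℕ) (i : Fin (m + 1)) : PDg J := (dg a m (.inl i), 1)

lemma qE_add_qI (s : J) : qE a s + qI a s = ∑ r, degF a r := by
  refine Prod.ext (Prod.ext ?_ ?_) ?_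
  · simp [qE, qI, degF, Prod.fst_sum]
  · simp [qE, qI, degF, Prod.fst_sum, Prod.snd_sum]
  · simp [qE, qI, degF, Prod.snd_sum]
    decide

lemma fv_succ_homog (c : J → Fin m → Fin (a + 1) → K) (r : J) (l : Fin m) :
    IsWeightedHomogeneous (wt a m) (rename emb (form0 c r l) : MvPolynomial (Var m J) K)
      (degF a r) := by
  simp only [form0, map_sum, map_mul, rename_C, map_pow, rename_X]
  refine IsWeightedHomogeneous.sum _ _ _ fun p _ => ?_
  have h := (isWeightedHomogeneous_C (wt a m) (c r l p)).mul
    ((((isWeightedHomogeneous_X K (wt a m) (emb (r, 0) : Var m J)).pow (p : ℕ)).mul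
      ((isWeightedHomogeneous_X K (wt a m) (emb (r, 1) : Var m J)).pow (a - (p : ℕ)))))
  convert h using 1
  have hp : ((p : ℕ) : ℤ) + ((a - (p : ℕ) : ℕ) : ℤ) = a := by have := p.2; omega
  refine Prod.ext (Prod.ext ?_ ?_) ?_
  · simp [degF, dg]
  · funext j
    rcases eq_or_ne j r with rfl | hj
    · simp [degF, dg, hp]
    · simp [degF, dg, hj]
  · simp [degF]

lemma fv_homog (c : J → Fin m → Fin (a + 1) → K) (r : J) (i : Fin (m + 1)) :
    IsWeightedHomogeneous (wt a m) (fv c r i) (degF a r) := by
  cases i using Fin.cases with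
  | zero => exact isWeightedHomogeneous_zero _ _ _
  | succ l => simpa [fv] using fv_succ_homog c r l

lemma fv_deg (c : J → Fin m → Fin (a + 1) → K) (r : J) (i : Fin (m + 1)) :
    fv c r i = 0 ∨ degF a r + wk a m i = qE a r := by
  cases i using Fin.cases with
  | zero => exact .inl rfl
  | succ l => exact .inr (by simp [degF, wk, qE, dg])

lemma cof_homog (c : J → Fin m → Fin (a + 1) → K) (e : J → Fin m) (s : J) (i : Fin (m + 1)) :
    IsWeightedHomogeneous (wt a m) (cof c e s i) (∑ r ∈ Finset.univ.erase s, degF a r) := by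
  cases i using Fin.cases with
  | zero => exact isWeightedHomogeneous_zero _ _ _
  | succ l =>
    simp only [cof, Fin.cons_succ]
    exact IsWeightedHomogeneous.sum _ _ _ fun j _ =>
      adjugate_homog (fun r i => fv_succ_homog c r (e i)) j s

lemma cof_deg (c : J → Fin m → Fin (a + 1) → K) (e : J → Fin m) (s : J) (i : Fin (m + 1)) :
    cof c e s i = 0 ∨ ∑ r ∈ Finset.univ.erase s, degF a r = qI a s + wk a m i := by
  cases i using Fin.cases with
  | zero => exact .inl rfl
  | succ l =>
    refine .inr (Prod.ext (Prod.ext ?_ ?_) ?_)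
    · simp [degF, wk, qI, dg, Prod.fst_sum]
    · simp [degF, wk, qI, dg, Prod.fst_sum, Prod.snd_sum]
    · simp [degF, wk, qI, Prod.snd_sum]
      decide

lemma sum_cof_fv (c : J → Fin m → Fin (a + 1) → K) (e : J → Fin m) (r s : J) :
    ∑ i, cof c e s i * fv c r i = if r = s then (minor c e).det else 0 := by
  rw [Fin.sum_univ_succ]
  simp only [cof, fv, Fin.cons_zero, Fin.cons_succ, zero_mul, zero_add, Finset.sum_mul]
  rw [show (∑ l : Fin m, ∑ i ∈ Finset.univ.filter (fun i => e i = l),
      (minor c e).adjugate i s * rename emb (form0 c r l)) =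
      ∑ i, (minor c e).adjugate i s * minor c e r i by
    rw [← Finset.sum_fiberwise (s := Finset.univ) (g := e)]
    refine Finset.sum_congr rfl fun l _ => Finset.sum_congr rfl fun i hi => ?_
    rw [← (Finset.mem_filter.1 hi).2]
    rfl]
  have h := congrFun (congrFun (Matrix.mul_adjugate (minor c e)) r) s
  rw [Matrix.mul_apply] at h
  rw [Finset.sum_congr rfl fun i _ => mul_comm _ _, h]
  simp [Matrix.one_apply]

lemma minor_eq (c : J → Fin m → Fin (a + 1) → K) (e : J → Fin m) :
    (minor c e).det = rename emb (Matrix.of fun r i => form0 c r (e i)).det := by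
  rw [AlgHom.map_det]
  rfl

lemma minor_homog (c : J → Fin m → Fin (a + 1) → K) (e : J → Fin m) :
    IsWeightedHomogeneous (wt a m) (minor c e).det (∑ r, degF a r) :=
  det_homog fun r i => fv_succ_homog c r (e i)

lemma irrelevant_eq (ch : J → Fin 2) (N : ℕ) :
    (monomial (∑ r, Finsupp.single (.inr (.inl (r, ch r))) N) 1 : MvPolynomial (Var m J) K) =
      rename emb ((∏ r, X (r, ch r)) ^ N) := by
  rw [monomial_sum_one, map_pow, map_prod, ← Finset.prod_pow]
  exact Finset.prod_congr rfl fun r _ => by rw [rename_X, X_pow_eq_monomial]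

variable {φ : MvPolynomial (Var m J) K →ₐ[K] Module.End D W}

lemma commute_wedge (p : MvPolynomial (Var m J) K) {N : ℕ}
    (c : Fin N → MvPolynomial (Var m J) K) : Commute (liftOp φ N p) (wedge φ c) :=
  Commute.sum_right _ _ _ fun i _ =>
    ((Commute.all p (c i)).map (liftOp φ N)).mul_right (liftOp_commute_ins φ p i)

lemma commute_contr (p : MvPolynomial (Var m J) K) {N : ℕ}
    (c : Fin N → MvPolynomial (Var m J) K) : Commute (liftOp φ N p) (contr φ c) :=
  Commute.sum_right _ _ _ fun i _ =>
    ((Commute.all p (c i)).map (liftOp φ N)).mul_right (liftOp_commute_con φ p i)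

/-- The Euler characteristic of a Koszul family. -/
lemma chi_kos (X : PDg J → Submodule D W) [∀ g, FiniteDimensional D (X g)] :
    chi (kos (wk (J := J) a m) X) =
      act (∏ i : Fin (m + 1), (1 - T (dg a m (.inl i : Var m J)))) (chi X) := by
  funext e
  have h1 : ∀ S : Finset (Fin (m + 1)), (∑ i ∈ S, wk (J := J) a m i) =
      (∑ i ∈ S, dg a m (.inl i : Var m J), (S.card : ZMod 2)) := fun S => by
    refine Prod.ext ?_ ?_
    · simp [wk, Prod.fst_sum]
    · simp [wk, Prod.snd_sum]
  have h2 : ∀ S : Finset (Fin (m + 1)), ∏ i ∈ S, AddMonoidAlgebra.single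
      (dg a m (.inl i : Var m J)) (-1 : ℤ) =
      AddMonoidAlgebra.single (∑ i ∈ S, dg a m (.inl i : Var m J)) ((-1 : ℤ) ^ S.card) := by
    intro S
    induction S using Finset.induction_on with
    | empty => simp [AddMonoidAlgebra.one_def]
    | insert i S hi ih =>
      rw [Finset.prod_insert hi, ih, AddMonoidAlgebra.single_mul_single, Finset.sum_insert hi,
        Finset.card_insert_of_notMem hi, pow_succ']
  rw [show (∏ i : Fin (m + 1), (1 - T (dg a m (.inl i : Var m J)))) =
      ∏ i : Fin (m + 1), (1 + AddMonoidAlgebra.single (dg a m (.inl i : Var m J)) (-1 : ℤ)) by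
    simp [T, sub_eq_add_neg], Finset.prod_one_add, map_sum, LinearMap.sum_apply, Finset.sum_apply,
    chi, finrank_kos, finrank_kos, Nat.cast_sum, Nat.cast_sum, ← Finset.sum_sub_distrib,
    Finset.powerset_univ]
  refine Finset.sum_congr rfl fun S _ => ?_
  rw [h1, h2, act_single]
  rcases Nat.even_or_odd S.card with h | h
  · rw [h.neg_one_pow, show (S.card : ZMod 2) = 0 by
      rw [ZMod.natCast_eq_zero_iff_even]; exact h, one_mul]
    have s0 : ∀ (q : ZMod 2) (x y : Dg J), ((x, q) : PDg J) - (y, 0) = (x - y, q) :=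
      fun q x y => Prod.ext rfl (sub_zero q)
    rw [s0, s0]
    rfl
  · rw [h.neg_one_pow, show (S.card : ZMod 2) = 1 by
      rw [ZMod.natCast_eq_one_iff_odd]; exact h]
    have s0 : ∀ x y : Dg J, ((x, 0) : PDg J) - (y, 1) = (x - y, 1) :=
      fun x y => Prod.ext rfl (show (0 : ZMod 2) - 1 = 1 by decide)
    have s1 : ∀ x y : Dg J, ((x, 1) : PDg J) - (y, 1) = (x - y, 0) :=
      fun x y => Prod.ext rfl (show (1 : ZMod 2) - 1 = 0 by decide)
    rw [s0, s1]
    simp only [chi]
    ring

end Vale.Agent.P200.Deg.Index
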