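import Mathlib

/-!
Graded modules over a polynomial ring, presented as families of subspaces of one space.

`σ` is the set of variables, `wt` their degrees, `φ` their action on `W`; a graded module is a
family `X : G → Submodule D W` with `x_i (X g) ≤ X (g + wt i)`, a subquotient is a pair of them.
-/

noncomputable section

namespace Vale.Agent.P200.Deg.Index

open MvPolynomial Module

variable {K D W σ G : Type*} [Field K] [DivisionRing D] [Algebra K D] [AddCommGroup W]
  [Module K W] [Module D W] [SMulCommClass D K W] [IsScalarTower K D W] [AddCommGroup G]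
variable (φ : MvPolynomial σ K →ₐ[K] Module.End D W) (wt : σ → G)

/-- A family stable under the variables. -/
def Stable (X : G → Submodule D W) : Prop :=
  ∀ i g, ∀ x ∈ X g, φ (MvPolynomial.X i) x ∈ X (g + wt i)

variable {φ wt}

lemma Stable.monomial {X : G → Submodule D W} (hX : Stable φ wt X) (b : σ →₀ ℕ) :
    ∀ (c : K) g, ∀ x ∈ X g, φ (MvPolynomial.monomial b c) x ∈ X (g + Finsupp.weight wt b) := by
  induction b using Finsupp.induction with
  | zero =>
    intro c g x hx
    rw [map_zero, add_zero, ← C_apply, ← MvPolynomial.algebraMap_eq, φ.commutes,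
      Module.algebraMap_end_apply]
    exact (X g).smul_of_tower_mem c hx
  | single_add i n b _ _ ih =>
    intro c g x hx
    rw [monomial_single_add, map_mul, Module.End.mul_apply, map_pow, map_add,
      Finsupp.weight_single]
    have h := ih c g x hx
    generalize φ (MvPolynomial.monomial b c) x = y at h ⊢
    rw [add_left_comm, add_comm (n • wt i)]
    clear * - h hX
    induction n with
    | zero => simpa using h
    | succ n ihn =>
      rw [pow_succ', Module.End.mul_apply, succ_nsmul, ← add_assoc]
      exact hX i _ _ ihn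

lemma Stable.homog {X : G → Submodule D W} (hX : Stable φ wt X) {p : MvPolynomial σ K} {d : G}
    (hp : IsWeightedHomogeneous wt p d) {g : G} {x : W} (hx : x ∈ X g) : φ p x ∈ X (g + d) := by
  rw [p.as_sum, map_sum, LinearMap.sum_apply]
  refine sum_mem fun b hb => ?_
  have := hX.monomial b (coeff b p) g x hx
  rwa [hp (mem_support_iff.1 hb)] at this

/-- Rank and nullity of a map between subquotients. -/
lemma finrank_comap_add_map {V V' : Type*} [AddCommGroup V] [Module D V] [AddCommGroup V']
    [Module D V'] (f : V →ₗ[D] V') (A : Submodule D V) (B : Submodule D V') [FiniteDimensional D A]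
    [FiniteDimensional D B] :
    finrank D ↥(A ⊓ B.comap f) + finrank D ↥(A.map f ⊔ B) = finrank D A + finrank D B := by
  have h1 := Submodule.finrank_sup_add_finrank_inf_eq (A.map f) B
  have h2 := LinearMap.finrank_range_add_finrank_ker (f ∘ₗ A.subtype)
  have h3 := LinearMap.finrank_range_add_finrank_ker (f ∘ₗ (A ⊓ B.comap f).subtype)
  rw [LinearMap.range_comp, Submodule.range_subtype] at h2 h3
  rw [← Submodule.map_inf_eq_map_inf_comap] at h3
  have hk : ∀ A : Submodule D V,
      finrank D (LinearMap.ker (f ∘ₗ A.subtype)) = finrank D ↥(A ⊓ LinearMap.ker f) := fun A => by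
    rw [← Submodule.finrank_map_subtype_eq A (LinearMap.ker (f ∘ₗ A.subtype)), LinearMap.ker_comp,
      Submodule.map_comap_subtype]
  rw [hk] at h2 h3
  have hle : LinearMap.ker f ≤ B.comap f := fun x hx => by
    rw [Submodule.mem_comap, LinearMap.mem_ker.1 hx]; exact B.zero_mem
  rw [inf_assoc A (B.comap f) (LinearMap.ker f), inf_eq_right.2 hle] at h3
  omega

variable (φ wt)

/-- Multiplication by a monomial on the direct sum over degrees. -/
def opHom : Multiplicative (σ →₀ ℕ) →* Module.End D (G →₀ W) where
  toFun b := Finsupp.lmapDomain W D (· + Finsupp.weight wt b.toAdd) ∘ₗ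
    Finsupp.mapRange.linearMap (φ (monomial b.toAdd 1))
  map_one' := by
    refine Finsupp.lhom_ext fun g x => ?_
    simp [MvPolynomial.monomial_zero']
  map_mul' b b' := by
    refine Finsupp.lhom_ext fun g x => ?_
    simp only [toAdd_mul, Module.End.mul_apply, LinearMap.comp_apply, Finsupp.lmapDomain_apply,
      Finsupp.mapRange.linearMap_apply, Finsupp.mapRange_single, Finsupp.mapDomain_single,
      map_add, add_assoc]
    rw [show monomial (b.toAdd + b'.toAdd) (1 : K) = monomial b.toAdd 1 * monomial b'.toAdd 1 by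
      rw [monomial_mul, one_mul], map_mul, Module.End.mul_apply, add_comm (Finsupp.weight wt _)]

/-- The action on the direct sum over degrees. -/
def rho : MvPolynomial σ K →ₐ[K] Module.End D (G →₀ W) :=
  AddMonoidAlgebra.lift K (Module.End D (G →₀ W)) (σ →₀ ℕ) (opHom φ wt)

variable {φ wt}

lemma rho_monomial (b : σ →₀ ℕ) (c : K) (g : G) (x : W) :
    rho φ wt (monomial b c) (Finsupp.single g x) =
      Finsupp.single (g + Finsupp.weight wt b) (φ (monomial b c) x) := by
  rw [show monomial b c = c • monomial b (1 : K) by rw [smul_monomial, smul_eq_mul, mul_one],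
    map_smul, map_smul, LinearMap.smul_apply, LinearMap.smul_apply, ← Finsupp.smul_single]
  congr 1
  rw [rho, ← MvPolynomial.single_eq_monomial, AddMonoidAlgebra.lift_single, one_smul]
  simp [opHom, ← MvPolynomial.single_eq_monomial]

lemma rho_homog {p : MvPolynomial σ K} {d : G} (hp : IsWeightedHomogeneous wt p d) (g : G) (x : W) :
    rho φ wt p (Finsupp.single g x) = Finsupp.single (g + d) (φ p x) := by
  conv_lhs => rw [p.as_sum]
  conv_rhs => rw [p.as_sum]
  rw [map_sum, map_sum, LinearMap.sum_apply, LinearMap.sum_apply, Finsupp.single_finsetSum]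
  exact Finset.sum_congr rfl fun b hb => by rw [rho_monomial, hp (mem_support_iff.1 hb)]

lemma Stable.rho_mem {X : G → Submodule D W} (hX : Stable φ wt X) {f : G →₀ W}
    (hf : ∀ g, f g ∈ X g) (p : MvPolynomial σ K) (g' : G) : rho φ wt p f g' ∈ X g' := by
  classical
  rw [p.as_sum, map_sum, LinearMap.sum_apply, Finsupp.finsetSum_apply]
  refine sum_mem fun b _ => ?_
  conv => arg 2; rw [← Finsupp.sum_single f, map_finsuppSum]
  rw [Finsupp.sum_apply]
  refine sum_mem fun g _ => ?_
  dsimp only
  rw [rho_monomial, Finsupp.single_apply]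
  split_ifs with h
  · exact h ▸ hX.monomial b _ g _ (hf g)
  · exact zero_mem _

variable (φ wt)

/-- The degree `g` part of what a set of homogeneous elements generates. -/
def genSpan (T : Finset (G × W)) (g : G) : Submodule D W :=
  Submodule.span D {y | ∃ t ∈ T, ∃ b, t.1 + Finsupp.weight wt b = g ∧ y = φ (monomial b 1) t.2}

/-- Finite generation by homogeneous elements. -/
def Gen (X : G → Submodule D W) : Prop :=
  ∃ T : Finset (G × W), (∀ t ∈ T, t.2 ∈ X t.1) ∧ ∀ g, X g ≤ genSpan φ wt T g

variable {φ wt}

lemma rho_single_mem_genSpan {T : Finset (G × W)} {t : G × W} (ht : t ∈ T)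
    (p : MvPolynomial σ K) (g : G) :
    rho φ wt p (Finsupp.single t.1 t.2) g ∈ genSpan φ wt T g := by
  classical
  rw [p.as_sum, map_sum, LinearMap.sum_apply, Finsupp.finsetSum_apply]
  refine sum_mem fun b _ => ?_
  rw [rho_monomial, Finsupp.single_apply]
  split_ifs with h
  · rw [show monomial b (coeff b p) = coeff b p • monomial b (1 : K) by
      rw [smul_monomial, smul_eq_mul, mul_one], map_smul, LinearMap.smul_apply]
    exact Submodule.smul_of_tower_mem (genSpan φ wt T g) _
      (Submodule.subset_span ⟨t, ht, b, h, rfl⟩)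
  · exact zero_mem _

/-- A graded submodule of a finitely generated one is finitely generated. -/
theorem Gen.sub [Finite σ] [FiniteDimensional K D] {Y X : G → Submodule D W} (hY : Gen φ wt Y)
    (hX : Stable φ wt X) (hle : ∀ g, X g ≤ Y g) : Gen φ wt X := by
  classical
  obtain ⟨T, -, hT⟩ := hY
  let bD := Module.finBasis K D
  let y : T × Fin (finrank K D) → G →₀ W := fun t => Finsupp.single t.1.1.1 (bD t.2 • t.1.1.2)
  let ψ : (T × Fin (finrank K D) → MvPolynomial σ K) →ₗ[K] (G →₀ W) :=
    { toFun := fun p => ∑ t, rho φ wt (p t) (y t)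
      map_add' := fun p q => by simp [Finset.sum_add_distrib]
      map_smul' := fun c p => by simp [Finset.smul_sum] }
  have hψ : ∀ p, ψ p = ∑ t, rho φ wt (p t) (y t) := fun p => rfl
  have hψs : ∀ q p, ψ (q • p) = rho φ wt q (ψ p) := fun q p => by
    simp [hψ, map_mul, Module.End.mul_apply]
  let N : Submodule (MvPolynomial σ K) (T × Fin (finrank K D) → MvPolynomial σ K) :=
    { carrier := {p | ∀ g, ψ p g ∈ X g}
      zero_mem' := fun g => by simp
      add_mem' := fun hp hq g => by
        rw [map_add, Finsupp.add_apply]; exact add_mem (hp g) (hq g)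
      smul_mem' := fun q p hp g => by rw [hψs]; exact hX.rho_mem hp q g }
  obtain ⟨P, hP⟩ := (isNoetherian_def.1 inferInstance) N
  have hPN : ∀ p ∈ P, ∀ g, ψ p g ∈ X g := fun p hp => by
    have : p ∈ N := hP ▸ Submodule.subset_span hp
    exact this
  refine ⟨P.biUnion fun p => (ψ p).support.image fun g => (g, ψ p g), ?_, fun g x hx => ?_⟩
  · simp only [Finset.mem_biUnion, Finset.mem_image]
    rintro _ ⟨p, hp, g, -, rfl⟩
    exact hPN p hp g
  have hr : Finsupp.single g x ∈ LinearMap.range ψ := by
    have hd : ∀ z ∈ genSpan φ wt T g, ∀ d : D, Finsupp.single g (d • z) ∈ LinearMap.range ψ := by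
      intro z hz
      induction hz using Submodule.span_induction with
      | mem z hz =>
        obtain ⟨t, ht, b, hb, rfl⟩ := hz
        intro d
        rw [← bD.sum_repr d, Finset.sum_smul, Finsupp.single_finsetSum]
        refine sum_mem fun i _ => ?_
        rw [smul_assoc, ← Finsupp.smul_single, ← map_smul (φ (monomial b 1))]
        refine Submodule.smul_mem _ _ ⟨Pi.single (⟨t, ht⟩, i) (monomial b 1), ?_⟩
        rw [hψ, Finset.sum_eq_single (⟨t, ht⟩, i) (fun t' _ h => by simp [Pi.single_eq_of_ne h])
          (by simp), Pi.single_eq_same, rho_monomial, hb]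
      | zero => intro d; simp
      | add z z' _ _ h h' => intro d; rw [smul_add, Finsupp.single_add]; exact add_mem (h d) (h' d)
      | smul c z _ h => intro d; rw [smul_smul]; exact h _
    simpa using hd x (hT g (hle g hx)) 1
  obtain ⟨p, hp⟩ := hr
  have hpN : p ∈ N := fun g' => by
    rw [hp, Finsupp.single_apply]
    split_ifs with h
    · exact h ▸ hx
    · exact zero_mem _
  rw [← hP, Submodule.mem_span_finset] at hpN
  obtain ⟨q, -, hq⟩ := hpN
  rw [← Finsupp.single_eq_same (a := g) (b := x), ← hp, ← hq, map_sum, Finsupp.finsetSum_apply]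
  refine sum_mem fun p' hp' => ?_
  conv => arg 2; rw [hψs, ← Finsupp.sum_single (ψ p'), map_finsuppSum]
  rw [Finsupp.sum_apply]
  refine sum_mem fun g' hg' => ?_
  exact rho_single_mem_genSpan (t := (g', ψ p' g'))
    (Finset.mem_biUnion.2 ⟨p', hp', Finset.mem_image.2 ⟨g', hg', rfl⟩⟩) _ g

lemma finite_weight {tg : G →+ ℤ} [Finite σ] (htg : ∀ i, 1 ≤ tg (wt i)) (g : G) :
    {b : σ →₀ ℕ | Finsupp.weight wt b = g}.Finite := by
  refine (Finsupp.finite_of_degree_le (tg g).toNat).subset fun b hb => ?_
  simp only [Set.mem_ofPred_eq] at hb ⊢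
  rw [← hb, Finsupp.weight_apply, Finsupp.sum, map_sum, Finsupp.degree_apply]
  refine (Int.le_toNat (Finset.sum_nonneg fun i _ => ?_)).2 ?_
  · rw [map_nsmul]; exact nsmul_nonneg (by linarith [htg i]) _
  · push_cast
    refine Finset.sum_le_sum fun i _ => ?_
    rw [map_nsmul, nsmul_eq_mul]
    exact le_mul_of_one_le_right (Int.natCast_nonneg _) (htg i)

lemma Gen.finite [Finite σ] {tg : G →+ ℤ} (htg : ∀ i, 1 ≤ tg (wt i)) {Y : G → Submodule D W}
    (hY : Gen φ wt Y) (g : G) : FiniteDimensional D (Y g) := by
  obtain ⟨T, -, hT⟩ := hY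
  have : FiniteDimensional D (genSpan φ wt T g) := by
    refine FiniteDimensional.span_of_finite D
      ((T.finite_toSet.biUnion fun t _ => (finite_weight htg (g - t.1)).image
        fun b => φ (monomial b 1) t.2).subset ?_)
    rintro _ ⟨t, ht, b, hb, rfl⟩
    exact Set.mem_biUnion ht ⟨b, eq_sub_of_add_eq' hb, rfl⟩
  exact Submodule.finiteDimensional_of_le (hT g)

variable (φ wt)

/-- The polynomials sending the family `Z` into the family `B`. -/
def killIdeal (Z : G → Submodule D W) {B : G → Submodule D W} (hB : Stable φ wt B) :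
    Ideal (MvPolynomial σ K) where
  carrier := {p | ∀ g, ∀ x ∈ Z g, ∀ g', rho φ wt p (Finsupp.single g x) g' ∈ B g'}
  zero_mem' := fun g x _ g' => by simp
  add_mem' := fun hp hq g x hx g' => by
    rw [map_add, LinearMap.add_apply, Finsupp.add_apply]
    exact add_mem (hp g x hx g') (hq g x hx g')
  smul_mem' := fun q p hp g x hx g' => by
    rw [smul_eq_mul, map_mul, Module.End.mul_apply]
    exact hB.rho_mem (hp g x hx) q g'

variable {φ wt}

lemma mem_killIdeal {Z B : G → Submodule D W} (hB : Stable φ wt B) {p : MvPolynomial σ K} {d : G}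
    (hp : IsWeightedHomogeneous wt p d) (h : ∀ g, ∀ x ∈ Z g, φ p x ∈ B (g + d)) :
    p ∈ killIdeal φ wt Z hB := fun g x hx g' => by
  classical
  rw [rho_homog hp, Finsupp.single_apply]
  split_ifs with e
  · exact e ▸ h g x hx
  · exact zero_mem _

lemma le_of_killIdeal {Z B : G → Submodule D W} (hB : Stable φ wt B) {T : Finset (G × W)}
    (hTZ : ∀ t ∈ T, t.2 ∈ Z t.1) {g : G}
    (h : ∀ t ∈ T, ∀ b, t.1 + Finsupp.weight wt b = g → monomial b 1 ∈ killIdeal φ wt Z hB) :
    genSpan φ wt T g ≤ B g := by
  refine Submodule.span_le.2 ?_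
  rintro _ ⟨t, ht, b, hb, rfl⟩
  have := h t ht b hb t.1 t.2 (hTZ t ht) g
  rwa [rho_monomial, hb, Finsupp.single_eq_same] at this

end Vale.Agent.P200.Deg.Index
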