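import Mathlib

/-!
Backward differences and the number of monomials of bounded degree.
-/

noncomputable section

namespace Vale.Agent.P200.Deg.Index

open Filter

/-- The backward difference. -/
def bdiff (f : ℤ → ℤ) : ℤ → ℤ := fun t => f t - f (t - 1)

lemma bdiff_iter_succ (f : ℤ → ℤ) (i : ℕ) (t : ℤ) :
    bdiff^[i + 1] f t = bdiff^[i] f t - bdiff^[i] f (t - 1) := by
  rw [Function.iterate_succ_apply']; rfl

lemma bdiff_iter_lin (f g : ℤ → ℤ) (x y : ℤ) (m : ℕ) :
    ∀ t, bdiff^[m] (fun t => x * f t + y * g t) t = x * bdiff^[m] f t + y * bdiff^[m] g t := by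
  induction m with
  | zero => intro t; rfl
  | succ m ih =>
    intro t
    rw [bdiff_iter_succ, bdiff_iter_succ, bdiff_iter_succ, ih, ih]
    ring

lemma bdiff_iter_shift (f : ℤ → ℤ) (C : ℤ) (m : ℕ) :
    ∀ t, bdiff^[m] (fun t => f (t + C)) t = bdiff^[m] f (t + C) := by
  induction m with
  | zero => intro t; rfl
  | succ m ih =>
    intro t
    rw [bdiff_iter_succ, bdiff_iter_succ, ih, ih, sub_add_eq_add_sub]

lemma eventually_neg : ∀ (m : ℕ) (f : ℤ → ℤ),
    (∀ᶠ t in atTop, bdiff^[m] f t ≤ -1) → ∀ᶠ t in atTop, f t ≤ -1 := by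
  intro m
  induction m with
  | zero => intro f h; exact h
  | succ m ih =>
    intro f h
    have h1 : ∀ᶠ t in atTop, bdiff f t ≤ -1 := ih (bdiff f) (by
      simpa [Function.iterate_succ_apply] using h)
    obtain ⟨t₀, ht₀⟩ := eventually_atTop.1 h1
    have h2 : ∀ t, t₀ ≤ t → f t ≤ f t₀ - (t - t₀) := fun t ht => by
      induction t, ht using Int.leInduction with
      | base => simp
      | succ t ht ih =>
        have := ht₀ (t + 1) (by omega)
        simp only [bdiff, add_sub_cancel_right] at this
        omega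
    refine eventually_atTop.2 ⟨max t₀ (t₀ + f t₀ + 1), fun t ht => ?_⟩
    have := h2 t (le_of_max_le_left ht)
    have := le_of_max_le_right ht
    omega

/-- An eventually nonnegative function has nonnegative eventually constant differences. -/
lemma nonneg_of_bdiff {m : ℕ} {f : ℤ → ℤ} {c : ℤ} (hf : ∀ᶠ t in atTop, 0 ≤ f t)
    (h : ∀ᶠ t in atTop, bdiff^[m] f t = c) : 0 ≤ c := by
  by_contra hc
  obtain ⟨t, h1, h2⟩ := (hf.and (eventually_neg m f (h.mono fun t ht => by omega))).exists
  omega

/-- The number of monomials in `m` variables of degree at most `t`. -/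
def count (m : ℕ) (t : ℤ) : ℤ := if t < 0 then 0 else ((t.toNat + m).choose m : ℤ)

lemma bdiff_count (m : ℕ) : bdiff (count (m + 1)) = count m := by
  funext t
  rcases lt_trichotomy t 0 with h | rfl | h
  · simp [bdiff, count, h, show t - 1 < 0 by omega]
  · simp [bdiff, count]
  · obtain ⟨n, rfl⟩ : ∃ n : ℕ, t = n + 1 := ⟨(t - 1).toNat, by omega⟩
    simp only [bdiff, count, show ¬((n : ℤ) + 1 < 0) by omega, add_sub_cancel_right,
      show ¬((n : ℤ) < 0) by omega, if_false, show ((n : ℤ) + 1).toNat = n + 1 by omega,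
      Int.toNat_natCast]
    rw [show n + 1 + (m + 1) = (n + 1 + m) + 1 by omega, Nat.choose_succ_succ',
      show n + (m + 1) = n + 1 + m by omega]
    push_cast
    ring

lemma bdiff_iter_count (m : ℕ) (C : ℤ) :
    ∀ᶠ t in atTop, bdiff^[m] (fun t => count m (t + C)) t = 1 := by
  refine eventually_atTop.2 ⟨-C, fun t ht => ?_⟩
  rw [bdiff_iter_shift]
  have : ∀ i, bdiff^[i] (count i) = count 0 := fun i => by
    induction i with
    | zero => rfl
    | succ i ih => rw [Function.iterate_succ_apply, bdiff_count, ih]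
  rw [this]
  simp [count, show ¬(t + C < 0) by omega]

/-- Two-sided bounds determine the eventual top difference. -/
lemma eq_of_sandwich {m : ℕ} {H : ℤ → ℤ} {r c C : ℤ}
    (hlo : ∀ᶠ t in atTop, r * count m (t - C) ≤ H t)
    (hhi : ∀ᶠ t in atTop, H t ≤ r * count m (t + C))
    (h : ∀ᶠ t in atTop, bdiff^[m] H t = c) : c = r := by
  have h1 := nonneg_of_bdiff (m := m) (f := fun t => 1 * H t + -r * count m (t + -C)) (c := c - r)
    (hlo.mono fun t ht => by rw [← sub_eq_add_neg t C]; linarith)
    ((h.and (bdiff_iter_count m (-C))).mono fun t ht => by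
      rw [bdiff_iter_lin H (fun t => count m (t + -C)), ht.1, ht.2]; ring)
  have h2 := nonneg_of_bdiff (m := m) (f := fun t => -1 * H t + r * count m (t + C)) (c := r - c)
    (hhi.mono fun t ht => by linarith)
    ((h.and (bdiff_iter_count m C)).mono fun t ht => by
      rw [bdiff_iter_lin H (fun t => count m (t + C)), ht.1, ht.2]; ring)
  omega

/-- The exponents of total degree at most `N`. -/
def mons (m N : ℕ) : Finset (Fin m →₀ ℕ) :=
  Finset.univ.image fun s : Sym (Fin (m + 1)) N =>
    Finsupp.equivFunOnFinite.symm fun i => (s : Multiset (Fin (m + 1))).count i.succ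

lemma sum_count_eq {m N : ℕ} (s : Sym (Fin (m + 1)) N) :
    ∑ i, (s : Multiset (Fin (m + 1))).count i = N := by
  rw [Multiset.sum_count_eq_card (fun i _ => Finset.mem_univ i)]
  exact s.2

lemma mem_mons {m N : ℕ} {β : Fin m →₀ ℕ} : β ∈ mons m N ↔ ∑ i, β i ≤ N := by
  simp only [mons, Finset.mem_image, Finset.mem_univ, true_and]
  refine ⟨fun ⟨s, hs⟩ => ?_, fun h => ?_⟩
  · subst hs
    have := sum_count_eq s
    rw [Fin.sum_univ_succ] at this
    simp only [Finsupp.coe_equivFunOnFinite_symm]
    omega
  · refine ⟨(Sym.equivNatSumOfFintype _ N).symm ⟨Fin.cons (N - ∑ i, β i) β, ?_⟩, ?_⟩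
    · rw [Fin.sum_univ_succ]
      simp only [Fin.cons_zero, Fin.cons_succ]
      omega
    · ext i
      simp only [Finsupp.coe_equivFunOnFinite_symm]
      rw [← Sym.coe_equivNatSumOfFintype_apply_apply, Equiv.apply_symm_apply]
      simp

lemma card_mons (m N : ℕ) : ((mons m N).card : ℤ) = count m N := by
  rw [mons, Finset.card_image_of_injective, Finset.card_univ, Sym.card_sym_eq_choose,
    Fintype.card_fin, count, if_neg (by omega), Int.toNat_natCast,
    show m + 1 + N - 1 = N + m by omega, Nat.choose_symm_add]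
  intro s t h
  have h' : ∀ i : Fin m, (s : Multiset (Fin (m + 1))).count i.succ =
      (t : Multiset (Fin (m + 1))).count i.succ := fun i => by
    simpa using DFunLike.congr_fun h i
  refine Subtype.ext (Multiset.ext.2 fun i => ?_)
  cases i using Fin.cases with
  | succ i => exact h' i
  | zero =>
    have hs := sum_count_eq s
    have ht := sum_count_eq t
    rw [Fin.sum_univ_succ, Finset.sum_congr rfl fun i _ => h' i] at hs
    rw [Fin.sum_univ_succ] at ht
    exact by change (s : Multiset (Fin (m + 1))).count 0 = (t : Multiset (Fin (m + 1))).count 0; omega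

end Vale.Agent.P200.Deg.Index
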