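import Mathlib

/-!
Functions on a lattice of degrees, up to eventual equality, acted on by shifts.

A degree is `(s, n)` with `s : ℤ` and `n : J → ℤ`; eventually refers to all `n r` large.
-/

noncomputable section

namespace Vale.Agent.P200.Deg.Index

open Filter AddMonoidAlgebra

variable {J : Type*}

/-- Degrees. -/
abbrev Dg (J : Type*) := ℤ × (J → ℤ)

/-- Integer functions of the degree. -/
abbrev Fn (J : Type*) := Dg J → ℤ

/-- Translation of functions. -/
def shiftHom (J : Type*) : Multiplicative (Dg J) →* Module.End ℤ (Fn J) where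
  toFun d := LinearMap.funLeft ℤ ℤ fun e => e - d.toAdd
  map_one' := LinearMap.ext fun g => funext fun e => by simp [LinearMap.funLeft_apply]
  map_mul' d d' := LinearMap.ext fun g => funext fun e => by
    simp [LinearMap.funLeft_apply, Module.End.mul_apply, sub_sub]

/-- The shift operators. -/
def act : AddMonoidAlgebra ℤ (Dg J) →ₐ[ℤ] Module.End ℤ (Fn J) :=
  AddMonoidAlgebra.lift ℤ (Module.End ℤ (Fn J)) (Dg J) (shiftHom J)

/-- A single shift. -/
abbrev T (d : Dg J) : AddMonoidAlgebra ℤ (Dg J) := AddMonoidAlgebra.single d 1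

lemma act_single (d : Dg J) (c : ℤ) (g : Fn J) (e : Dg J) :
    act (AddMonoidAlgebra.single d c) g e = c * g (e - d) := by
  simp [act, AddMonoidAlgebra.lift_single, shiftHom, LinearMap.funLeft_apply]

lemma act_T (d : Dg J) (g : Fn J) (e : Dg J) : act (T d) g e = g (e - d) := by
  simp [T, act_single]

lemma act_one_sub (d : Dg J) (g : Fn J) (e : Dg J) :
    act (1 - T d) g e = g e - g (e - d) := by
  rw [map_sub, map_one, LinearMap.sub_apply, Pi.sub_apply, Module.End.one_apply, act_T]

lemma act_mul (p q : AddMonoidAlgebra ℤ (Dg J)) (g : Fn J) :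
    act (p * q) g = act p (act q g) := by
  rw [map_mul]; rfl

lemma eventually_sub {P : (J → ℤ) → Prop} (h : ∀ᶠ n in atTop, P n) (d : J → ℤ) :
    ∀ᶠ n in atTop, P (n - d) :=
  (tendsto_atTop_add_const_right atTop (-d) tendsto_id).eventually
    (by simpa [sub_eq_add_neg] using h) |>.mono fun n hn => by simpa [sub_eq_add_neg] using hn

/-- Functions vanishing eventually. -/
def Ev (J : Type*) : Submodule ℤ (Fn J) where
  carrier := {g | ∀ᶠ n in atTop, ∀ s, g (s, n) = 0}
  zero_mem' := Eventually.of_forall fun _ _ => rfl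
  add_mem' hg hh := (hg.and hh).mono fun n h s => by simp [h.1 s, h.2 s]
  smul_mem' c g hg := hg.mono fun n h s => by simp [h s]

lemma mem_Ev {g : Fn J} : g ∈ Ev J ↔ ∀ᶠ n in atTop, ∀ s, g (s, n) = 0 := Iff.rfl

/-- Functions eventually supported in a fixed range of `s`. -/
def Bdd (J : Type*) : Submodule ℤ (Fn J) where
  carrier := {g | ∃ s₀ s₁ : ℤ, ∀ᶠ n in atTop, ∀ s, s < s₀ ∨ s₁ < s → g (s, n) = 0}
  zero_mem' := ⟨0, 0, Eventually.of_forall fun _ _ _ => rfl⟩
  add_mem' := by
    rintro g h ⟨a, b, hg⟩ ⟨a', b', hh⟩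
    refine ⟨min a a', max b b', (hg.and hh).mono fun n hn s hs => ?_⟩
    rw [Pi.add_apply, hn.1 s (hs.imp (fun h => lt_of_lt_of_le h (min_le_left _ _))
      fun h => lt_of_le_of_lt (le_max_left _ _) h), hn.2 s (hs.imp
      (fun h => lt_of_lt_of_le h (min_le_right _ _))
      fun h => lt_of_le_of_lt (le_max_right _ _) h), add_zero]
  smul_mem' := by
    rintro c g ⟨a, b, hg⟩
    exact ⟨a, b, hg.mono fun n h s hs => by simp [h s hs]⟩

lemma Ev_le_Bdd : Ev J ≤ Bdd J := fun g hg => ⟨0, 0, hg.mono fun n h s _ => h s⟩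

lemma act_mem_Ev (p : AddMonoidAlgebra ℤ (Dg J)) {g : Fn J} (hg : g ∈ Ev J) :
    act p g ∈ Ev J := by
  induction p using AddMonoidAlgebra.induction_linear with
  | zero => simp
  | add p q hp hq => rw [map_add, LinearMap.add_apply]; exact add_mem hp hq
  | single d c =>
    exact (eventually_sub hg d.2).mono fun n h s => by
      rw [act_single, show (s, n) - d = (s - d.1, n - d.2) from rfl, h, mul_zero]

lemma act_mem_Bdd (p : AddMonoidAlgebra ℤ (Dg J)) {g : Fn J} (hg : g ∈ Bdd J) :
    act p g ∈ Bdd J := by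
  induction p using AddMonoidAlgebra.induction_linear with
  | zero => simp
  | add p q hp hq => rw [map_add, LinearMap.add_apply]; exact add_mem hp hq
  | single d c =>
    obtain ⟨a, b, hg⟩ := hg
    refine ⟨a + d.1, b + d.1, (eventually_sub hg d.2).mono fun n h s hs => ?_⟩
    rw [act_single, show (s, n) - d = (s - d.1, n - d.2) from rfl,
      h (s - d.1) (hs.imp (by omega) (by omega)), mul_zero]

/-- `1 - T d` is injective on functions of bounded range when `d` moves `s` up. -/
lemma mem_Ev_of_one_sub {d : Dg J} (hd : 1 ≤ d.1) {g : Fn J} (hg : g ∈ Bdd J)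
    (h : act (1 - T d) g ∈ Ev J) : g ∈ Ev J := by
  obtain ⟨a, b, hb⟩ := hg
  have key : ∀ t : ℕ, ∀ᶠ n in atTop, ∀ s, s < a + t → g (s, n) = 0 := by
    intro t
    induction t with
    | zero => exact hb.mono fun n h s hs => h s (Or.inl (by simpa using hs))
    | succ t ih =>
      refine ((mem_Ev.1 h).and (eventually_sub ih d.2)).mono fun n hn s hs => ?_
      have h1 := hn.1 s
      rw [act_one_sub, show (s, n) - d = (s - d.1, n - d.2) from rfl,
        hn.2 (s - d.1) (by push_cast at hs; omega)] at h1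
      simpa using h1
  refine (hb.and (key (b - a + 1).toNat)).mono fun n hn s => ?_
  rcases lt_or_ge b s with hs | hs
  · exact hn.1 s (Or.inr hs)
  · exact hn.2 s (by have := Int.self_le_toNat (b - a + 1); omega)

lemma mem_Ev_of_prod {ι : Type*} (S : Finset ι) (d : ι → Dg J) (hd : ∀ i, 1 ≤ (d i).1) :
    ∀ {g : Fn J}, g ∈ Bdd J → act (∏ i ∈ S, (1 - T (d i))) g ∈ Ev J → g ∈ Ev J := by
  classical
  induction S using Finset.induction_on with
  | empty => intro g _ h; simpa using h
  | insert i S hi ih =>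
    intro g hg h
    rw [Finset.prod_insert hi, act_mul] at h
    exact ih hg (mem_Ev_of_one_sub (hd i) (act_mem_Bdd _ hg) h)

lemma one_sub_mul_geom (c : Dg J) (a : ℕ) :
    (1 - T c) * ∑ j : Fin a, T ((j : ℕ) • c) = 1 - T (a • c) := by
  induction a with
  | zero => simp [T, AddMonoidAlgebra.one_def]
  | succ a ih =>
    rw [Fin.sum_univ_castSucc, mul_add]
    simp only [Fin.val_castSucc, Fin.val_last]
    rw [ih, sub_mul, one_mul, AddMonoidAlgebra.single_mul_single, one_mul, ← succ_nsmul']
    abel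

/-- The total over `s`. -/
def tot (g : Fn J) (n : J → ℤ) : ℤ := ∑ᶠ s, g (s, n)

lemma tot_eq {g : Fn J} {n : J → ℤ} {F : Finset ℤ} (h : ∀ s ∉ F, g (s, n) = 0) :
    tot g n = ∑ s ∈ F, g (s, n) := by
  refine finsum_eq_sum_of_support_subset _ fun s hs => ?_
  by_contra hsF
  exact hs (h s hsF)

lemma finite_of_bdd {g : Fn J} (hg : g ∈ Bdd J) :
    ∀ᶠ n in atTop, (Function.support fun s => g (s, n)).Finite := by
  obtain ⟨a, b, h⟩ := hg
  refine h.mono fun n hn => (Finset.Icc a b).finite_toSet.subset fun s hs => ?_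
  rw [Finset.coe_Icc, Set.mem_Icc]
  by_contra hne
  exact hs (hn s (by omega))

lemma tot_congr {g g' : Fn J} (h : g - g' ∈ Ev J) : ∀ᶠ n in atTop, tot g n = tot g' n :=
  (mem_Ev.1 h).mono fun n hn => finsum_congr fun s => sub_eq_zero.1 (hn s)

lemma tot_act (p : AddMonoidAlgebra ℤ (Dg J)) {g : Fn J} (hg : g ∈ Bdd J)
    {y : (J → ℤ) → ℤ} (hy : ∀ᶠ n in atTop, tot g n = y n) :
    ∀ᶠ n in atTop, tot (act p g) n = p.coeff.sum fun d c => c * y (n - d.2) := by
  induction p using AddMonoidAlgebra.induction_linear with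
  | zero => exact Eventually.of_forall fun n => by simp [tot]
  | add p q hp hq =>
    refine ((hp.and hq).and ((finite_of_bdd (act_mem_Bdd p hg)).and
      (finite_of_bdd (act_mem_Bdd q hg)))).mono fun n hn => ?_
    rw [AddMonoidAlgebra.coeff_add, Finsupp.sum_add_index' (h := fun (d : Dg J) (c : ℤ) => c * y (n - d.2))
      (fun d => zero_mul _) (fun d c c' => add_mul c c' _),
      ← hn.1.1, ← hn.1.2, map_add, LinearMap.add_apply]
    exact finsum_add_distrib hn.2.1 hn.2.2
  | single d c =>
    refine ((eventually_sub hy d.2).and (eventually_sub (finite_of_bdd hg) d.2)).mono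
      fun n hn => ?_
    rw [AddMonoidAlgebra.coeff_single, Finsupp.sum_single_index (zero_mul _), ← hn.1]
    have h1 : ∀ s, act (AddMonoidAlgebra.single d c) g (s, n) =
        c * g (Equiv.subRight d.1 s, n - d.2) := fun s => act_single d c g (s, n)
    rw [tot, finsum_congr h1, ← mul_finsum _ _, tot]
    · congr 1
      exact finsum_comp_equiv (Equiv.subRight d.1) (f := fun s => g (s, n - d.2))

end Vale.Agent.P200.Deg.Index
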