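import Vale.Agent.P200.Deg.Index.Shift
import Vale.Agent.P200.Deg.Index.Graded

/-!
Euler characteristics of subquotients and the sweep over kernels and cokernels of variables.
-/

noncomputable section

namespace Vale.Agent.P200.Deg.Index

open MvPolynomial Module Filter

set_option linter.unusedSectionVars false

/-- The variables: `λ, z_1 .. z_m`, the two variables of a block, its root. -/
abbrev Var (m : ℕ) (J : Type*) := Fin (m + 1) ⊕ (J × Fin 2) ⊕ J

/-- Degrees with parity. -/
abbrev PDg (J : Type*) := Dg J × ZMod 2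

variable {J : Type*} [DecidableEq J]

/-- The degree of a variable. -/
def dg (a m : ℕ) : Var m J → Dg J
  | .inl i => (if i = 0 then 1 else (a : ℤ), 0)
  | .inr (.inl p) => (0, Pi.single p.1 1)
  | .inr (.inr r) => (1, Pi.single r 1)

/-- The degree of a variable, with parity. -/
abbrev wt (a m : ℕ) (v : Var m J) : PDg J := (dg a m v, 0)

variable [Fintype J]

/-- A positive functional on degrees. -/
def tg (J : Type*) [Fintype J] : PDg J →+ ℤ where
  toFun g := g.1.1 + ∑ r, g.1.2 r
  map_zero' := by simp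
  map_add' g h := by simp [Finset.sum_add_distrib]; ring

lemma one_le_tg {a m : ℕ} (ha : 0 < a) (v : Var m J) : 1 ≤ tg J (wt a m v) := by
  rcases v with i | p | r <;> simp [tg, dg, wt]
  split_ifs <;> omega

variable {K D W : Type*} [Field K] [DivisionRing D] [Algebra K D] [AddCommGroup W]
  [Module K W] [Module D W] [SMulCommClass D K W] [IsScalarTower K D W]

/-- `f` maps the family `X` into `Y`, raising degrees by `d`. -/
def Maps (f : Module.End D W) (d : PDg J) (X Y : PDg J → Submodule D W) : Prop :=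
  ∀ g, ∀ x ∈ X g, f x ∈ Y (g + d)

/-- The image of `f`, above `X'`. -/
def img (f : Module.End D W) (d : PDg J) (X X' : PDg J → Submodule D W) (g : PDg J) :
    Submodule D W :=
  (X (g - d)).map f ⊔ X' g

/-- The preimage of `X'`. -/
def pre (f : Module.End D W) (d : PDg J) (X X' : PDg J → Submodule D W) (g : PDg J) :
    Submodule D W :=
  X g ⊓ (X' (g + d)).comap f

/-- The Euler characteristic of a family. -/
def chi (X : PDg J → Submodule D W) : Fn J := fun e =>
  (finrank D (X (e, 0)) : ℤ) - finrank D (X (e, 1))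

/-- The additive identity of a map between subquotients. -/
lemma chi_step (f : Module.End D W) (d : Dg J) (p : ZMod 2) (X X' : PDg J → Submodule D W)
    [∀ g, FiniteDimensional D (X g)] [∀ g, FiniteDimensional D (X' g)] :
    act (AddMonoidAlgebra.single d (if p = 0 then 1 else -1)) (chi (pre f (d, p) X X') - chi X) =
      chi X' - chi (img f (d, p) X X') := by
  funext e
  have h : ∀ q, (finrank D (pre f (d, p) X X' ((e, q) - (d, p))) : ℤ) +
      finrank D (img f (d, p) X X' (e, q)) =
      finrank D (X ((e, q) - (d, p))) + finrank D (X' (e, q)) := fun q => by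
    unfold pre img
    rw [sub_add_cancel]
    exact_mod_cast finrank_comap_add_map f (X ((e, q) - (d, p))) (X' (e, q))
  rw [act_single]
  simp only [Pi.sub_apply, chi]
  obtain rfl | rfl : p = 0 ∨ p = 1 := by clear * -; revert p; decide
  · have h0 := h 0
    have h1 := h 1
    rw [show ((e, 0) : PDg J) - (d, 0) = (e - d, 0) from Prod.ext rfl (sub_zero _)] at h0
    rw [show ((e, 1) : PDg J) - (d, 0) = (e - d, 1) from Prod.ext rfl (sub_zero _)] at h1
    rw [if_pos rfl]
    linarith
  · have h0 := h 0
    have h1 := h 1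
    rw [show ((e, 0) : PDg J) - (d, 1) = (e - d, 1) from Prod.ext rfl (show (0 : ZMod 2) - 1 = 1 by decide)] at h0
    rw [show ((e, 1) : PDg J) - (d, 1) = (e - d, 0) from Prod.ext rfl (show (1 : ZMod 2) - 1 = 0 by decide)] at h1
    rw [if_neg (by decide)]
    linarith

variable {m a : ℕ} {φ : MvPolynomial (Var m J) K →ₐ[K] Module.End D W}

/-- A stable family inside `Y`. -/
def Sub (φ : MvPolynomial (Var m J) K →ₐ[K] Module.End D W) (a : ℕ)
    (Y X : PDg J → Submodule D W) : Prop :=
  Stable φ (wt a m) X ∧ X ≤ Y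

variable {Y X X' : PDg J → Submodule D W}

lemma Sub.gen [FiniteDimensional K D] (hY : Gen φ (wt a m) Y) (hX : Sub φ a Y X) :
    Gen φ (wt a m) X :=
  hY.sub hX.1 hX.2

lemma Sub.fin (ha : 0 < a) (hY : Gen φ (wt a m) Y) (hX : Sub φ a Y X) (g : PDg J) :
    FiniteDimensional D (X g) :=
  have := hY.finite (one_le_tg ha) g
  Submodule.finiteDimensional_of_le (hX.2 g)

lemma sub_img {f : Module.End D W} {d : PDg J} (hX : Sub φ a Y X) (hX' : Sub φ a Y X')
    (hc : ∀ v, Commute (φ (MvPolynomial.X v)) f) (hf : Maps f d X Y) :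
    Sub φ a Y (img f d X X') := by
  refine ⟨fun v g x hx => ?_, fun g => sup_le ?_ (hX'.2 g)⟩
  · obtain ⟨_, ⟨y, hy, rfl⟩, z, hz, rfl⟩ := Submodule.mem_sup.1 hx
    rw [map_add]
    refine Submodule.add_mem_sup ⟨φ (MvPolynomial.X v) y, ?_, ?_⟩ (hX'.1 v g z hz)
    · rw [add_sub_right_comm]
      exact hX.1 v _ y hy
    · exact (LinearMap.congr_fun (hc v).eq y).symm
  · rintro _ ⟨y, hy, rfl⟩
    simpa using hf _ y hy

lemma sub_pre {f : Module.End D W} {d : PDg J} (hX : Sub φ a Y X) (hX' : Sub φ a Y X')
    (hc : ∀ v, Commute (φ (MvPolynomial.X v)) f) :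
    Sub φ a Y (pre f d X X') := by
  refine ⟨fun v g x hx => ⟨hX.1 v g x hx.1, ?_⟩, fun g => inf_le_left.trans (hX.2 g)⟩
  rw [Submodule.comap_coe, Set.mem_preimage, SetLike.mem_coe, add_right_comm]
  have := hX'.1 v _ _ hx.2
  rwa [← Module.End.mul_apply, ← (hc v).eq, Module.End.mul_apply]

lemma img_le {f : Module.End D W} {d : PDg J} (h : X' ≤ X) (hf : Maps f d X X) :
    img f d X X' ≤ X := fun g => sup_le (by
    rintro _ ⟨y, hy, rfl⟩
    simpa using hf _ y hy) (h g)

lemma le_pre {f : Module.End D W} {d : PDg J} (h : X' ≤ X) (hf : Maps f d X' X') :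
    X' ≤ pre f d X X' := fun g x hx => ⟨h g hx, hf g x hx⟩

/-- Iterated kernels and cokernels of a list of variables. -/
theorem sweep (ha : 0 < a) (hY : Gen φ (wt a m) Y) (U : Submodule ℤ (Fn J))
    (hU : ∀ p, ∀ f ∈ U, act p f ∈ U) :
    ∀ (l : List (Var m J)) (P : Var m J → Prop),
    (∀ X X', Sub φ a Y X → Sub φ a Y X' → X' ≤ X →
      (∀ v, P v ∨ v ∈ l → Maps (φ (MvPolynomial.X v)) (wt a m v) X X') → chi X - chi X' ∈ U) →
    ∀ X X', Sub φ a Y X → Sub φ a Y X' → X' ≤ X →
      (∀ v, P v → Maps (φ (MvPolynomial.X v)) (wt a m v) X X') →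
      act (l.map fun v => 1 - T (dg a m v)).prod (chi X - chi X') ∈ U := by
  intro l
  induction l with
  | nil =>
    intro P hb X X' hX hX' hle hk
    simpa using hb X X' hX hX' hle fun v hv => hk v (by simpa using hv)
  | cons v l ih =>
    intro P hb X X' hX hX' hle hk
    have := hX.fin ha hY
    have := hX'.fin ha hY
    set f := φ (MvPolynomial.X v)
    set I := img f (wt a m v) X X'
    set Z := pre f (wt a m v) X X'
    have hc : ∀ w, Commute (φ (MvPolynomial.X w)) f := fun w => (Commute.all _ _).map φ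
    have hfX : Maps f (wt a m v) X X := hX.1 v
    have hI : Sub φ a Y I := sub_img hX hX' hc fun g x hx => hX.2 _ (hfX g x hx)
    have hZ : Sub φ a Y Z := sub_pre hX hX' hc
    have hb' : ∀ A B, Sub φ a Y A → Sub φ a Y B → B ≤ A →
        (∀ w, (P w ∨ w = v) ∨ w ∈ l → Maps (φ (MvPolynomial.X w)) (wt a m w) A B) →
        chi A - chi B ∈ U := fun A B hA hB hAB hk' => hb A B hA hB hAB fun w hw => hk' w (by
      rcases hw with h | h
      · exact .inl (.inl h)
      · rcases List.mem_cons.1 h with h | h
        · exact .inl (.inr h)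
        · exact .inr h)
    have h1 := ih (fun w => P w ∨ w = v) hb' X I hX hI (img_le hle hfX) fun w hw g x hx => by
      rcases hw with h | rfl
      · exact (le_sup_right : X' (g + _) ≤ I (g + _)) (hk w h g x hx)
      · exact (le_sup_left : _ ≤ I (g + _)) ⟨x, by simpa using hx, rfl⟩
    have h2 := ih (fun w => P w ∨ w = v) hb' Z X' hZ hX' (le_pre hle (hX'.1 v)) fun w hw g x hx => by
      rcases hw with h | rfl
      · exact hk w h g x hx.1
      · exact hx.2
    have e : act (1 - T (dg a m v)) (chi X - chi X') =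
        (chi X - chi I) - act (T (dg a m v)) (chi Z - chi X') := by
      have := chi_step f (dg a m v) 0 X X'
      rw [if_pos rfl, map_sub] at this
      rw [map_sub (act (1 - T _)), map_sub (act (T _)), map_sub act, map_one,
        LinearMap.sub_apply, LinearMap.sub_apply, Module.End.one_apply, Module.End.one_apply,
        eq_add_of_sub_eq this]
      abel
    rw [List.map_cons, List.prod_cons, mul_comm, act_mul, e, map_sub]
    refine sub_mem h1 ?_
    rw [← act_mul, mul_comm, act_mul]
    exact hU _ _ h2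

end Vale.Agent.P200.Deg.Index
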