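import Vale.Agent.P200.Deg.Index.Sweep

/-!
Subquotients killed by `λ`, the `z_l` and the roots: bounded range, vanishing, second differences.
-/

noncomputable section

namespace Vale.Agent.P200.Deg.Index

open MvPolynomial Module Filter

set_option linter.unusedSectionVars false

variable {J : Type*} [DecidableEq J] [Fintype J] {K D W : Type*} [Field K] [DivisionRing D]
  [Algebra K D] [AddCommGroup W] [Module K W] [Module D W] [SMulCommClass D K W]
  [IsScalarTower K D W] [FiniteDimensional K D] {m a : ℕ}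
  {φ : MvPolynomial (Var m J) K →ₐ[K] Module.End D W} {Y X B : PDg J → Submodule D W}

/-- Killed by `λ`, all `z_l` and all roots. -/
def Killed (φ : MvPolynomial (Var m J) K →ₐ[K] Module.End D W) (a : ℕ)
    (X B : PDg J → Submodule D W) : Prop :=
  (∀ i, Maps (φ (MvPolynomial.X (.inl i))) (wt a m (.inl i)) X B) ∧
    ∀ r, Maps (φ (MvPolynomial.X (.inr (.inr r)))) (wt a m (.inr (.inr r))) X B

lemma monomial_mem_of_le {σ : Type*} {I : Ideal (MvPolynomial σ K)} {b' b : σ →₀ ℕ} (h : b' ≤ b)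
    (hb : monomial b' 1 ∈ I) : monomial b 1 ∈ I := by
  rw [← tsub_add_cancel_of_le h, ← one_mul (1 : K), ← monomial_mul]
  exact I.mul_mem_left _ hb

lemma weight_wt (b : Var m J →₀ ℕ) :
    Finsupp.weight (wt a m) b = ∑ v, b v • wt a m v := by
  rw [Finsupp.weight_apply]
  exact Finsupp.sum_fintype b (fun v c => c • wt a m v) fun v => zero_smul ℕ _

lemma single_mem {v : Var m J} (hB : Stable φ (wt a m) B)
    (h : Maps (φ (MvPolynomial.X v)) (wt a m v) X B) :
    monomial (Finsupp.single v 1) 1 ∈ killIdeal φ (wt a m) X hB :=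
  mem_killIdeal (p := MvPolynomial.X v) hB (isWeightedHomogeneous_X K _ v) h

lemma Killed.monomial_mem (hk : Killed φ a X B) (hB : Stable φ (wt a m) B) {b : Var m J →₀ ℕ}
    {v : Var m J} (hv : ∀ p, v ≠ .inr (.inl p)) (hb : b v ≠ 0) :
    monomial b 1 ∈ killIdeal φ (wt a m) X hB := by
  refine monomial_mem_of_le (b' := Finsupp.single v 1) ?_ ?_
  · rwa [Finsupp.single_le_iff, Nat.one_le_iff_ne_zero]
  refine single_mem hB ?_
  rcases v with i | p | r
  · exact hk.1 i
  · exact absurd rfl (hv p)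
  · exact hk.2 r

lemma chi_sub_eq_zero {e : Dg J} (hle : B ≤ X) (h : ∀ q, X (e, q) ≤ B (e, q)) :
    (chi X - chi B) e = 0 := by
  have e : ∀ q, finrank D (X (e, q)) = finrank D (B (e, q)) := fun q => by
    rw [le_antisymm (h q) (hle _)]
  simp [chi, e 0, e 1]

theorem chi_mem_Bdd (hY : Gen φ (wt a m) Y) (hX : Sub φ a Y X) (hB : Sub φ a Y B) (hle : B ≤ X)
    (hz : ∀ i, Maps (φ (MvPolynomial.X (.inl i))) (wt a m (.inl i)) X B)
    (hw : ∀ r, monomial (Finsupp.single (.inr (.inr r)) a) 1 ∈ killIdeal φ (wt a m) X hB.1) :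
    chi X - chi B ∈ Bdd J := by
  classical
  obtain ⟨T, hTX, hT⟩ := hX.gen hY
  refine ⟨-∑ t ∈ T, |t.1.1.1|, ∑ t ∈ T, |t.1.1.1| + a * Fintype.card J,
    Eventually.of_forall fun n s hs =>
    chi_sub_eq_zero hle fun q => (hT _).trans (le_of_killIdeal hB.1 hTX fun t ht b hb => ?_)⟩
  by_contra hno
  have hz0 : ∀ i, b (.inl i) = 0 := fun i => by
    by_contra hne
    refine hno (monomial_mem_of_le (b' := Finsupp.single (Sum.inl i : Var m J) 1) (b := b) ?_
      (single_mem (v := (Sum.inl i : Var m J)) hB.1 (hz i)))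
    rw [Finsupp.single_le_iff]
    exact Nat.one_le_iff_ne_zero.2 hne
  have hw0 : ∀ r, b (.inr (.inr r)) ≤ a := fun r => by
    by_contra hne
    refine hno (monomial_mem_of_le (b' := Finsupp.single (Sum.inr (Sum.inr r) : Var m J) a) (b := b)
      ?_ (hw r))
    rw [Finsupp.single_le_iff]
    omega
  have hs0 : (Finsupp.weight (wt a m) b).1.1 = ∑ r : J, (b (.inr (.inr r)) : ℤ) := by
    rw [weight_wt, Prod.fst_sum, Prod.fst_sum, Fintype.sum_sum_type, Fintype.sum_sum_type,
      Finset.sum_eq_zero (fun i _ => by simp [hz0 i]),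
      Finset.sum_eq_zero (fun i _ => by simp [dg]), zero_add, zero_add]
    exact Finset.sum_congr rfl fun r _ => by simp [dg]
  have := congrArg (fun g : PDg J => g.1.1) hb
  simp only [Prod.fst_add, hs0] at this
  have hb' := Finset.single_le_sum (f := fun t : PDg J × W => |t.1.1.1|) (fun _ _ => abs_nonneg _) ht
  have hub : ∑ r : J, (b (.inr (.inr r)) : ℤ) ≤ a * Fintype.card J := by
    refine (Finset.sum_le_card_nsmul _ _ (a : ℤ) fun r _ => by exact_mod_cast hw0 r).trans ?_
    rw [Finset.card_univ, nsmul_eq_mul, mul_comm]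
  have hlb : 0 ≤ ∑ r : J, (b (.inr (.inr r)) : ℤ) := Finset.sum_nonneg fun r _ => by positivity
  have := abs_le.1 hb'
  omega

/-- Killed by `λ`, the `z_l` and the roots gives the hypotheses of `chi_mem_Bdd`. -/
lemma Killed.root (ha : 0 < a) (hk : Killed φ a X B) (hB : Stable φ (wt a m) B) (r : J) :
    monomial (Finsupp.single (.inr (.inr r)) a) 1 ∈ killIdeal φ (wt a m) X hB :=
  hk.monomial_mem hB (v := .inr (.inr r)) (fun p => by simp) (by simp; omega)

theorem chi_mem_Ev (hY : Gen φ (wt a m) Y) (hX : Sub φ a Y X) (hB : Sub φ a Y B) (hle : B ≤ X)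
    (hk : Killed φ a X B) (N : ℕ)
    (hN : ∀ ch : J → Fin 2, monomial (∑ r, Finsupp.single (.inr (.inl (r, ch r))) N) 1 ∈
      killIdeal φ (wt a m) X hB.1) :
    chi X - chi B ∈ Ev J := by
  classical
  obtain ⟨T, hTX, hT⟩ := hX.gen hY
  refine mem_Ev.2 (eventually_atTop.2 ⟨fun r => 2 * N + ∑ t ∈ T, |t.1.1.2 r|, fun n hn s =>
    chi_sub_eq_zero hle fun q => (hT _).trans (le_of_killIdeal hB.1 hTX fun t ht b hb => ?_)⟩)
  by_contra hno
  have h0 : ∀ v, (∀ p, v ≠ .inr (.inl p)) → b v = 0 := fun v hv => by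
    by_contra hne
    exact hno (hk.monomial_mem hB.1 hv hne)
  refine hno (monomial_mem_of_le ?_ (hN fun r => if N ≤ b (.inr (.inl (r, 0))) then 0 else 1))
  intro v
  rw [Finsupp.finsetSum_apply]
  rcases v with i | ⟨r, j⟩ | r
  · simp
  swap
  · simp
  rw [Finset.sum_eq_single r (fun r' _ h => Finsupp.single_eq_of_ne (by simp [h.symm]))
    (by simp), Finsupp.single_apply]
  have hs : (Finsupp.weight (wt a m) b).1.2 r =
      (b (.inr (.inl (r, 0))) : ℤ) + b (.inr (.inl (r, 1))) := by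
    rw [weight_wt, Prod.fst_sum, Prod.snd_sum, Finset.sum_apply, Fintype.sum_sum_type,
      Fintype.sum_sum_type, Fintype.sum_prod_type,
      Finset.sum_eq_zero (fun i _ => by simp [h0 (.inl i) fun p => by simp]),
      Finset.sum_eq_zero (s := (Finset.univ : Finset J))
        (f := fun x => ((b (.inr (.inr x)) • wt a m (.inr (.inr x))) : PDg J).1.2 r)
        (fun i _ => by simp [h0 (.inr (.inr i)) fun p => by simp]),
      zero_add, add_zero, Finset.sum_eq_single r (fun r' _ h => by simp [dg, h.symm]) (by simp)]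
    simp [dg, Fin.sum_univ_two]
  have h2 := congrArg (fun g : PDg J => g.1.2 r) hb
  simp only [Prod.fst_add, Prod.snd_add, Pi.add_apply, hs] at h2
  have ht' := Finset.single_le_sum (f := fun t : PDg J × W => |t.1.1.2 r|)
    (fun _ _ => abs_nonneg _) ht
  have := hn r
  have := abs_le.1 ht'
  split_ifs at * with h1 h3 h4 <;> simp_all
  all_goals omega

/-- The functions of bounded range whose second differences vanish eventually. -/
def U₀ (J : Type*) [DecidableEq J] : Submodule ℤ (Fn J) :=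
  Bdd J ⊓ ⨅ r : J, (Ev J).comap (act ((1 - T ((0 : ℤ), Pi.single r 1)) ^ 2))

lemma act_mem_U₀ (p : AddMonoidAlgebra ℤ (Dg J)) {f : Fn J} (hf : f ∈ U₀ J) : act p f ∈ U₀ J := by
  simp only [U₀, Submodule.mem_inf, Submodule.mem_iInf, Submodule.mem_comap] at hf ⊢
  refine ⟨act_mem_Bdd p hf.1, fun r => ?_⟩
  rw [← act_mul, mul_comm, act_mul]
  exact act_mem_Ev p (hf.2 r)

theorem chi_mem_U₀ (ha : 0 < a) (hY : Gen φ (wt a m) Y) (hX : Sub φ a Y X) (hB : Sub φ a Y B)
    (hle : B ≤ X) (hk : Killed φ a X B) : chi X - chi B ∈ U₀ J := by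
  simp only [U₀, Submodule.mem_inf, Submodule.mem_iInf, Submodule.mem_comap]
  refine ⟨chi_mem_Bdd hY hX hB hle hk.1 (hk.root ha hB.1), fun r => ?_⟩
  have h := sweep ha hY (Ev J) (fun p f => act_mem_Ev p)
    [.inr (.inl (r, 0)), .inr (.inl (r, 1))] (fun v => ∀ p, v ≠ .inr (.inl p))
    (fun X' B' hX' hB' hle' hk' => chi_mem_Ev hY hX' hB' hle'
      ⟨fun i => hk' _ (.inl fun p => by simp), fun s => hk' _ (.inl fun p => by simp)⟩ 1
      fun ch => monomial_mem_of_le (b' := Finsupp.single (.inr (.inl (r, ch r))) 1)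
        (Finset.single_le_sum (f := fun s => Finsupp.single (Sum.inr (Sum.inl (s, ch s))) 1)
          (fun _ _ => zero_le) (Finset.mem_univ r))
        (single_mem hB'.1 (hk' _ (.inr (by
          obtain h | h : ch r = 0 ∨ ch r = 1 := by omega
          all_goals simp [h])))))
    X B hX hB hle fun v hv => by
      rcases v with i | p | s
      · exact hk.1 i
      · exact absurd rfl (hv p)
      · exact hk.2 s
  simpa [dg, sq] using h

end Vale.Agent.P200.Deg.Index
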